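import Crest.Agent.N265.Sp.Res

/-! # Task SP1: constructions of spaces, noetherian induction, components -/

set_option autoImplicit false
noncomputable section
open MvPolynomial

namespace Crest.Agent.N265
open Sp
namespace Spc

lemma Sub.refl (X : Spc) : X.Sub X := ⟨rfl, subset_rfl⟩
lemma Sub.trans {Z Y X : Spc} (h : Z.Sub Y) (h' : Y.Sub X) : Z.Sub X :=
  ⟨h.1.trans h'.1, h.2.trans h'.2⟩
lemma Sub.I_le {Z X : Spc} (h : Z.Sub X) : X.I ≤ Z.I := fun _ hr x hx => hr x (h.2 hx)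
lemma _root_.Crest.Agent.N265.Proj.kill_mem {Y X : Spc} (h : Proj Y X) {r : R} (hr : r ∈ X.I) :
    kill X.B r ∈ Y.I := fun y hy => by rw [eval_kill]; exact hr _ (h.map y hy)
lemma exists_notMem {Z : Spc} {x : Pt} (hx : Rel Z.B x) (hn : x ∉ Z.pts) :
    ∃ r ∈ Z.I, eval x r ≠ 0 := by
  by_contra h
  push Not at h
  exact hn (Z.closed x hx h)
lemma exists_hmg_notMem' {Z : Spc} {x : Pt} (hx : Rel Z.B x) (hn : x ∉ Z.pts) :
    ∃ d, ∃ r ∈ Z.I, Hmg d r ∧ eval x r ≠ 0 := by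
  obtain ⟨r, hr, h0⟩ := exists_notMem hx hn
  obtain ⟨d, s, h1, h2, h3⟩ := exists_hmg_of_mem (fun _ => Spc.gam_mem_I) hr h0
  exact ⟨d, s, h2, h1, h3⟩
/-- a homogeneous polynomial that is non-zero at a point supported in `B` has degree in `DS B` -/
lemma _root_.Crest.Agent.N265.Hmg.mem_DS_of_eval {d : D} {r : R} (h : Hmg d r) {B : Finset ℕ}
    {x : Pt} (hB : restr B x = x) (h0 : eval x r ≠ 0) : d ∈ DS B := by
  by_contra hd
  apply h0
  rw [← hB, ← eval_kill, h.kill_eq_zero hd, map_zero]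
lemma exists_hmg_notMem {Z : Spc} {x : Pt} (hx : Rel Z.B x) (hB : restr Z.B x = x)
    (hn : x ∉ Z.pts) : ∃ d ∈ DS Z.B, ∃ r ∈ Z.I, Hmg d r ∧ eval x r ≠ 0 := by
  obtain ⟨d, r, h1, h2, h3⟩ := exists_hmg_notMem' hx hn
  exact ⟨d, h2.mem_DS_of_eval hB h3, r, h1, h2, h3⟩
lemma Sub.exists_hmg {Z X : Spc} (h : Z.Sub X) {x : Pt} (hx : x ∈ X.pts) (hn : x ∉ Z.pts) :
    ∃ d ∈ DS X.B, ∃ r ∈ Z.I, Hmg d r ∧ eval x r ≠ 0 :=
  h.1 ▸ exists_hmg_notMem (h.1 ▸ X.rel x hx) (h.1 ▸ X.restr_eq hx) hn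

/-- a relatively closed invariant subset of a space -/
def ofClosed (X : Spc) (S : Set Pt) (hS : S ⊆ X.pts)
    (hc : ∀ x ∈ X.pts, x ∉ S → ∃ r : R, eval x r ≠ 0 ∧ ∀ y ∈ S, eval y r = 0)
    (hi : ∀ x ∈ S, gpt x ∈ S) : Spc where
  B := X.B
  pts := S
  fin := X.fin.imp fun _ h => ⟨h.1, fun x hx => h.2 x (hS hx)⟩
  rel := fun x hx => X.rel x (hS hx)
  closed := fun x hx h => by
    have hX : x ∈ X.pts := X.closed x hx fun r hr => h r fun y hy => hr y (hS hy)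
    by_contra hn
    obtain ⟨r, h1, h2⟩ := hc x hX hn
    exact h1 (h r h2)
  inv := hi
@[simp] lemma ofClosed_B (X : Spc) (S hS hc hi) : (X.ofClosed S hS hc hi).B = X.B := rfl
@[simp] lemma ofClosed_pts (X : Spc) (S hS hc hi) : (X.ofClosed S hS hc hi).pts = S := rfl
lemma ofClosed_sub (X : Spc) (S hS hc hi) : (X.ofClosed S hS hc hi).Sub X := ⟨rfl, hS⟩
/-- zero set of homogeneous polynomials -/
def cut (X : Spc) (J : Set R) (hJ : ∀ r ∈ J, ∃ d, Hmg d r) : Spc :=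
  X.ofClosed {x | x ∈ X.pts ∧ ∀ r ∈ J, eval x r = 0} (fun _ h => h.1)
    (fun x hx hn => by
      have : ∃ r ∈ J, eval x r ≠ 0 := by
        by_contra h
        push Not at h
        exact hn ⟨hx, h⟩
      obtain ⟨r, h1, h2⟩ := this
      exact ⟨r, h2, fun y hy => hy.2 r h1⟩)
    (fun x hx => ⟨X.inv x hx.1, fun r hr => by
      obtain ⟨d, hd⟩ := hJ r hr
      rw [hd.eval_gpt, hx.2 r hr, mul_zero]⟩)
lemma cut_sub (X : Spc) (J : Set R) (hJ) : (X.cut J hJ).Sub X := ⟨rfl, fun _ h => h.1⟩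
@[simp] lemma cut_B (X : Spc) (J : Set R) (hJ) : (X.cut J hJ).B = X.B := rfl
@[simp] lemma mem_cut {X : Spc} {J : Set R} {hJ} {x : Pt} :
    x ∈ (X.cut J hJ).pts ↔ x ∈ X.pts ∧ ∀ r ∈ J, eval x r = 0 := Iff.rfl
lemma mem_cut_I {X : Spc} {J : Set R} {hJ} {r : R} (hr : r ∈ J) : r ∈ (X.cut J hJ).I :=
  fun _ hx => hx.2 r hr
/-- zero set of a stable ideal -/
def cutI (X : Spc) (J : Ideal R) (hJ : ∀ r ∈ J, gam r ∈ J) : Spc :=
  X.ofClosed {x | x ∈ X.pts ∧ ∀ r ∈ J, eval x r = 0} (fun _ h => h.1)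
    (fun x hx hn => by
      have : ∃ r ∈ J, eval x r ≠ 0 := by
        by_contra h
        push Not at h
        exact hn ⟨hx, h⟩
      obtain ⟨r, h1, h2⟩ := this
      exact ⟨r, h2, fun y hy => hy.2 r h1⟩)
    (fun x hx => ⟨X.inv x hx.1, fun r hr => by rw [← eval_gam]; exact hx.2 _ (hJ r hr)⟩)
lemma cutI_sub (X : Spc) (J : Ideal R) (hJ) : (X.cutI J hJ).Sub X := ⟨rfl, fun _ h => h.1⟩
@[simp] lemma cutI_B (X : Spc) (J : Ideal R) (hJ) : (X.cutI J hJ).B = X.B := rfl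
@[simp] lemma mem_cutI {X : Spc} {J : Ideal R} {hJ} {x : Pt} :
    x ∈ (X.cutI J hJ).pts ↔ x ∈ X.pts ∧ ∀ r ∈ J, eval x r = 0 := Iff.rfl
lemma le_cutI_I (X : Spc) (J : Ideal R) (hJ) : J ≤ (X.cutI J hJ).I := fun r hr _ hx => hx.2 r hr
/-- product of projective spaces on the variables `V` -/
def full (B : Finset ℕ) (V : Finset Var) : Spc where
  B := B
  pts := {x | Rel B x ∧ ∀ v, x v ≠ 0 → v ∈ V ∧ v.1 ∈ B}
  fin := ⟨V.filter fun v => v.1 ∈ B, fun v hv => (Finset.mem_filter.1 hv).2,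
    fun x hx v hv => by_contra fun h => hv (Finset.mem_filter.2 (hx.2 v h))⟩
  rel := fun _ h => h.1
  closed := fun x hx h => ⟨hx, fun v hv => by_contra fun hn => hv <| by
    have := h (X v) fun y hy => by rw [eval_X]; exact by_contra fun h' => hn (hy.2 v h')
    rwa [eval_X] at this⟩
  inv := fun x hx => ⟨rel_gpt.2 hx.1, fun v hv => hx.2 v (right_ne_zero_of_mul hv)⟩
@[simp] lemma full_B (B : Finset ℕ) (V : Finset Var) : (full B V).B = B := rfl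
lemma mem_full {B : Finset ℕ} {V : Finset Var} {x : Pt} :
    x ∈ (full B V).pts ↔ Rel B x ∧ ∀ v, x v ≠ 0 → v ∈ V ∧ v.1 ∈ B := Iff.rfl
lemma exists_sub_full (X : Spc) : ∃ V : Finset Var, (∀ v ∈ V, v.1 ∈ X.B) ∧ X.Sub (full X.B V) :=
  let ⟨V, h1, h2⟩ := X.fin
  ⟨V, h1, rfl, fun x hx => ⟨X.rel x hx, fun v hv =>
    have : v ∈ V := by_contra fun h => hv (h2 x hx v h)
    ⟨this, h1 v this⟩⟩⟩
/-- the empty space -/
def empty (B : Finset ℕ) : Spc where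
  B := B
  pts := ∅
  fin := ⟨∅, by simp, by simp⟩
  rel := by simp
  closed := fun x _ h => by simpa using h 1
  inv := by simp
@[simp] lemma empty_B (B : Finset ℕ) : (empty B).B = B := rfl
@[simp] lemma empty_pts (B : Finset ℕ) : (empty B).pts = ∅ := rfl
lemma empty_sub (X : Spc) : (empty X.B).Sub X := ⟨rfl, Set.empty_subset _⟩
/-- the point (no blocks) -/
def pt0 : Spc := full ∅ ∅
@[simp] lemma pt0_B : pt0.B = ∅ := rfl
lemma pt0_pts : pt0.pts = {0} := Set.ext fun x =>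
  ⟨fun h => funext fun v => by_contra fun hv => by simpa using h.2 v hv,
    fun h => ⟨rel_empty x, by simp [Set.mem_singleton_iff.1 h]⟩⟩
lemma proj_pt0 (X : Spc) : Proj X pt0 :=
  ⟨Finset.empty_subset _, fun y _ => by rw [pt0_pts]; funext v; simp [restr]⟩
/-- union of two closed subspaces of `X` -/
def union (X Z₁ Z₂ : Spc) (h₁ : Z₁.Sub X) (h₂ : Z₂.Sub X) : Spc :=
  X.ofClosed (Z₁.pts ∪ Z₂.pts) (Set.union_subset h₁.2 h₂.2)
    (fun x hx hn => by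
      obtain ⟨r, h1, h2⟩ := exists_notMem (h₁.1 ▸ X.rel x hx) fun h => hn (Or.inl h)
      obtain ⟨s, h3, h4⟩ := exists_notMem (h₂.1 ▸ X.rel x hx) fun h => hn (Or.inr h)
      refine ⟨r * s, by rw [map_mul]; exact mul_ne_zero h2 h4, fun y hy => ?_⟩
      rcases hy with hy | hy
      · rw [map_mul, h1 y hy, zero_mul]
      · rw [map_mul, h3 y hy, mul_zero])
    (fun x hx => hx.imp (Z₁.inv x) (Z₂.inv x))
@[simp] lemma union_B (X Z₁ Z₂ : Spc) (h₁ h₂) : (X.union Z₁ Z₂ h₁ h₂).B = X.B := rfl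
@[simp] lemma union_pts (X Z₁ Z₂ : Spc) (h₁ h₂) :
    (X.union Z₁ Z₂ h₁ h₂).pts = Z₁.pts ∪ Z₂.pts := rfl
lemma union_sub (X Z₁ Z₂ : Spc) (h₁ h₂) : (X.union Z₁ Z₂ h₁ h₂).Sub X := ofClosed_sub _ _ _ _ _
lemma sub_union_left (X Z₁ Z₂ : Spc) (h₁ h₂) : Z₁.Sub (X.union Z₁ Z₂ h₁ h₂) :=
  ⟨h₁.1, Set.subset_union_left⟩
lemma sub_union_right (X Z₁ Z₂ : Spc) (h₁ h₂) : Z₂.Sub (X.union Z₁ Z₂ h₁ h₂) :=
  ⟨h₂.1, Set.subset_union_right⟩
/-- finite unions of closed subspaces of `X` -/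
def iUnion (X : Spc) {ι : Type*} [Finite ι] (Z : ι → Spc) (h : ∀ i, (Z i).Sub X) : Spc :=
  X.ofClosed {x | ∃ i, x ∈ (Z i).pts} (fun _ ⟨i, hi⟩ => (h i).2 hi)
    (fun x hx hn => by
      have := Fintype.ofFinite ι
      choose r h1 h2 using fun i => exists_notMem ((h i).1 ▸ X.rel x hx) fun h' => hn ⟨i, h'⟩
      refine ⟨∏ i, r i, ?_, fun y ⟨i, hy⟩ => ?_⟩
      · rw [map_prod]; exact Finset.prod_ne_zero_iff.2 fun i _ => h2 i
      · rw [map_prod]; exact Finset.prod_eq_zero (Finset.mem_univ i) (h1 i y hy))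
    (fun x ⟨i, hx⟩ => ⟨i, (Z i).inv x hx⟩)
@[simp] lemma iUnion_B (X : Spc) {ι : Type*} [Finite ι] (Z : ι → Spc) (h) :
    (X.iUnion Z h).B = X.B := rfl
@[simp] lemma mem_iUnion {X : Spc} {ι : Type*} [Finite ι] {Z : ι → Spc} {h} {x : Pt} :
    x ∈ (X.iUnion Z h).pts ↔ ∃ i, x ∈ (Z i).pts := Iff.rfl
lemma iUnion_sub (X : Spc) {ι : Type*} [Finite ι] (Z : ι → Spc) (h) : (X.iUnion Z h).Sub X :=
  ofClosed_sub _ _ _ _ _
/-- fibre product over the common blocks (product, preimage, intersection) -/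
def fib (X Y : Spc) : Spc where
  B := X.B ∪ Y.B
  pts := {z | restr X.B z ∈ X.pts ∧ restr Y.B z ∈ Y.pts ∧ ∀ v, z v ≠ 0 → v.1 ∈ X.B ∪ Y.B}
  fin := by
    obtain ⟨V, h1, h2⟩ := X.fin
    obtain ⟨W, h3, h4⟩ := Y.fin
    refine ⟨V ∪ W, fun v hv => ?_, fun z hz v hv => ?_⟩
    · exact (Finset.mem_union.1 hv).elim (fun h => Finset.mem_union_left _ (h1 v h))
        fun h => Finset.mem_union_right _ (h3 v h)
    · rw [Finset.notMem_union] at hv
      by_contra h0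
      rcases Finset.mem_union.1 (hz.2.2 v h0) with hb | hb
      · exact h0 (by rw [← restr_of_mem z hb]; exact h2 _ hz.1 v hv.1)
      · exact h0 (by rw [← restr_of_mem z hb]; exact h4 _ hz.2.1 v hv.2)
  rel := fun z hz => rel_union.2 ⟨(rel_restr subset_rfl).1 (X.rel _ hz.1),
    (rel_restr subset_rfl).1 (Y.rel _ hz.2.1)⟩
  closed := fun z hz h => by
    rw [rel_union] at hz
    refine ⟨X.closed _ ((rel_restr subset_rfl).2 hz.1) fun r hr => ?_,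
      Y.closed _ ((rel_restr subset_rfl).2 hz.2) fun r hr => ?_, fun v hv => by_contra fun hb => ?_⟩
    · rw [← eval_kill]; exact h _ fun y hy => by rw [eval_kill]; exact hr _ hy.1
    · rw [← eval_kill]; exact h _ fun y hy => by rw [eval_kill]; exact hr _ hy.2.1
    · exact hv <| by
        simpa using h (MvPolynomial.X v) fun y hy => by
          rw [eval_X]; exact by_contra fun h' => hb (hy.2.2 v h')
  inv := fun z hz => ⟨by rw [restr_gpt]; exact X.inv _ hz.1, by rw [restr_gpt]; exact Y.inv _ hz.2.1,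
    fun v hv => hz.2.2 v (right_ne_zero_of_mul hv)⟩
@[simp] lemma fib_B (X Y : Spc) : (fib X Y).B = X.B ∪ Y.B := rfl
lemma mem_fib {X Y : Spc} {z : Pt} : z ∈ (fib X Y).pts ↔
    restr X.B z ∈ X.pts ∧ restr Y.B z ∈ Y.pts ∧ ∀ v, z v ≠ 0 → v.1 ∈ X.B ∪ Y.B := Iff.rfl
lemma fib_comm (X Y : Spc) : fib X Y = fib Y X :=
  Spc.ext (Finset.union_comm _ _) (Set.ext fun z => by
    simp only [mem_fib, Finset.union_comm X.B]; tauto)
lemma fib_fst (X Y : Spc) : Proj (fib X Y) X := ⟨Finset.subset_union_left, fun _ h => h.1⟩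
lemma fib_snd (X Y : Spc) : Proj (fib X Y) Y := ⟨Finset.subset_union_right, fun _ h => h.2.1⟩
lemma fib_lift {W X Y : Spc} (h : Proj W X) (h' : Proj W Y) : Proj W (fib X Y) :=
  ⟨Finset.union_subset h.sub h'.sub, fun z hz =>
    ⟨by rw [fib_B, restr_restr Finset.subset_union_left]; exact h.map z hz,
     by rw [fib_B, restr_restr Finset.subset_union_right]; exact h'.map z hz,
     fun v hv => (restr_ne.1 hv).1⟩⟩
lemma fib_mono {X X' Y Y' : Spc} (h : X.Sub X') (h' : Y.Sub Y') : (fib X Y).Sub (fib X' Y') :=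
  ⟨by rw [fib_B, fib_B, h.1, h'.1], fun z hz =>
    ⟨h.1 ▸ h.2 hz.1, h'.1 ▸ h'.2 hz.2.1, h.1 ▸ h'.1 ▸ hz.2.2⟩⟩
lemma fib_assoc (X Y Z : Spc) : fib (fib X Y) Z = fib X (fib Y Z) :=
  sub_antisymm
    (proj_sub (fib_lift ((fib_fst _ _).trans (fib_fst X Y))
      (fib_lift ((fib_fst _ _).trans (fib_snd X Y)) (fib_snd _ Z))) (Finset.union_assoc _ _ _))
    (proj_sub (fib_lift (fib_lift (fib_fst X _) ((fib_snd _ _).trans (fib_fst Y Z)))
      ((fib_snd _ _).trans (fib_snd Y Z))) (Finset.union_assoc _ _ _).symm)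
lemma mem_fib_of_subset {Y Z : Spc} (h : Z.B ⊆ Y.B) {y : Pt} :
    y ∈ (fib Y Z).pts ↔ y ∈ Y.pts ∧ restr Z.B y ∈ Z.pts := by
  rw [mem_fib, Finset.union_eq_left.2 h, ← restr_eq_iff]
  exact ⟨fun ⟨h1, h2, h3⟩ => ⟨h3 ▸ h1, h2⟩,
    fun ⟨h1, h2⟩ => ⟨by rwa [Y.restr_eq h1], h2, Y.restr_eq h1⟩⟩
lemma fib_sub_of_subset {Y Z : Spc} (h : Z.B ⊆ Y.B) : (fib Y Z).Sub Y :=
  ⟨Finset.union_eq_left.2 h, fun _ hy => ((mem_fib_of_subset h).1 hy).1⟩
/-- intersection -/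
lemma mem_fib_of_eq {Y Z : Spc} (h : Z.B = Y.B) {y : Pt} :
    y ∈ (fib Y Z).pts ↔ y ∈ Y.pts ∧ y ∈ Z.pts := by
  rw [mem_fib_of_subset h.le]
  exact and_congr_right fun hy => by rw [h, Y.restr_eq hy]
/-- preimage of a closed subspace -/
lemma fib_sub {Y X Z : Spc} (h : Proj Y X) (hZ : Z.Sub X) : (fib Y Z).Sub Y :=
  fib_sub_of_subset (hZ.1 ▸ h.sub)
lemma mem_fib_pre {Y X Z : Spc} (h : Proj Y X) (hZ : Z.Sub X) {y : Pt} :
    y ∈ (fib Y Z).pts ↔ y ∈ Y.pts ∧ restr X.B y ∈ Z.pts := by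
  rw [mem_fib_of_subset (hZ.1 ▸ h.sub), hZ.1]
lemma add_mem_fib {X Y : Spc} (h : Disjoint X.B Y.B) {x y : Pt} (hx : x ∈ X.pts)
    (hy : y ∈ Y.pts) : x + y ∈ (fib X Y).pts ∧ restr X.B (x + y) = x ∧ restr Y.B (x + y) = y := by
  have h1 : restr X.B (x + y) = x := by
    rw [restr_add, X.restr_eq hx, ← Y.restr_eq hy, restr_of_disjoint h, add_zero]
  have h2 : restr Y.B (x + y) = y := by
    rw [restr_add, Y.restr_eq hy, ← X.restr_eq hx, restr_of_disjoint h.symm, zero_add]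
  refine ⟨⟨by rwa [h1], by rwa [h2], fun v hv => by_contra fun hb => hv ?_⟩, h1, h2⟩
  rw [Finset.notMem_union] at hb
  simp [eq_zero_of_notMem hx hb.1, eq_zero_of_notMem hy hb.2]
lemma eq_add_of_mem_fib {X Y : Spc} (h : Disjoint X.B Y.B) {z : Pt} (hz : z ∈ (fib X Y).pts) :
    restr X.B z + restr Y.B z = z := by
  rw [restr_add_restr h]; exact restr_eq_iff.2 hz.2.2
lemma mem_fib_iff_add {X Y : Spc} (h : Disjoint X.B Y.B) {z : Pt} :
    z ∈ (fib X Y).pts ↔ ∃ x ∈ X.pts, ∃ y ∈ Y.pts, x + y = z :=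
  ⟨fun hz => ⟨_, hz.1, _, hz.2.1, eq_add_of_mem_fib h hz⟩,
    fun ⟨_, hx, _, hy, e⟩ => e ▸ (add_mem_fib h hx hy).1⟩
/-- block-proportional points, with scalars normalised to be non-zero -/
lemma exists_scal_ne {X : Spc} {x y : Pt} (hx : x ∈ X.pts) (hy : y ∈ X.pts) {c : ℕ → ℂ}
    (h : ∀ v, y v = c v.1 * x v) : ∃ c : ℕ → ℂ, (∀ b, c b ≠ 0) ∧ ∀ v, y v = c v.1 * x v := by
  classical
  refine ⟨fun b => if b ∈ X.B then c b else 1, fun b => ?_, fun v => ?_⟩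
  · dsimp only
    split_ifs with hb
    · obtain ⟨v, rfl, hv⟩ := X.rel y hy b hb
      exact left_ne_zero_of_mul (h v ▸ hv)
    · exact one_ne_zero
  · dsimp only
    split_ifs with hb
    · exact h v
    · simp [eq_zero_of_notMem hx hb, eq_zero_of_notMem hy hb]
/-- block-proportionality is a closed condition (`2 × 2` minors) -/
lemma exists_scal_of_minors {X : Spc} {x y : Pt} (hx : x ∈ X.pts) (hy : y ∈ X.pts)
    (key : ∀ u v : Var, u.1 = v.1 → x u * y v = x v * y u) :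
    ∃ c : ℕ → ℂ, (∀ b, c b ≠ 0) ∧ ∀ v, y v = c v.1 * x v := by
  choose! u hu hu' using X.rel x hx
  refine exists_scal_ne hx hy (c := fun b => y (u b) / x (u b)) fun v => ?_
  by_cases hv : v.1 ∈ X.B
  · have := key (u v.1) v (hu _ hv)
    have h0 := hu' _ hv
    field_simp
    linear_combination this
  · simp [eq_zero_of_notMem hx hv, eq_zero_of_notMem hy hv]
/-- the orbit of a `T`-fixed point -/
def orb (X : Spc) (w : ℕ → ℤ) (hw : X.TTriv w) (x : Pt) (hx : x ∈ X.pts) : Spc :=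
  X.ofClosed {y | ∃ c : ℕ → ℂ, (∀ b, c b ≠ 0) ∧ ∀ v, y v = c v.1 * x v}
    (fun y ⟨c, hc, h⟩ => (funext h : y = bsc c x) ▸ bsc_mem hx fun b _ => hc b)
    (fun y hy hn => by
      by_contra hr
      push Not at hr
      refine hn (exists_scal_of_minors hx hy fun u v e => ?_)
      by_contra hne
      obtain ⟨z, ⟨c, -, hc⟩, hz⟩ := hr (C (x u) * MvPolynomial.X v - C (x v) * MvPolynomial.X u)
        (by simpa [sub_eq_zero] using hne)
      apply hz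
      simp only [map_sub, map_mul, eval_C, eval_X, hc, e]
      ring)
    (fun y ⟨c, hc, h⟩ => ⟨fun b => chi (eB b + w b • eT) * c b,
      fun b => mul_ne_zero (chi_ne _) (hc b), fun v => by
        by_cases hv : x v = 0
        · simp [gpt, h, hv]
        · simp only [gpt, h, vdeg, hw x hx v hv]; ring⟩)
@[simp] lemma orb_B (X : Spc) (w hw x hx) : (X.orb w hw x hx).B = X.B := rfl
lemma mem_orb {X : Spc} {w hw x hx} {y : Pt} : y ∈ (X.orb w hw x hx).pts ↔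
    ∃ c : ℕ → ℂ, (∀ b, c b ≠ 0) ∧ ∀ v, y v = c v.1 * x v := Iff.rfl
lemma orb_sub (X : Spc) (w hw x hx) : (X.orb w hw x hx).Sub X := ofClosed_sub _ _ _ _ _
lemma self_mem_orb (X : Spc) (w hw x hx) : x ∈ (X.orb w hw x hx).pts :=
  ⟨fun _ => 1, fun _ => one_ne_zero, fun _ => (one_mul _).symm⟩
lemma orb_sub_of_mem {X Z : Spc} (hB : X.B = Z.B) {w hw x hx} (h : x ∈ Z.pts) :
    (X.orb w hw x hx).Sub Z :=
  ⟨hB, fun y ⟨c, hc, e⟩ => (funext e : y = bsc c x) ▸ bsc_mem h fun b _ => hc b⟩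
/-- `P` is a single `T`-fixed point -/
def IsPt (P : Spc) (w : ℕ → ℤ) : Prop := P.TTriv w ∧ ∃ x ∈ P.pts, ∀ y ∈ P.pts,
  ∃ c : ℕ → ℂ, ∀ v, y v = c v.1 * x v
lemma orb_isPt (X : Spc) (w hw x hx) : (X.orb w hw x hx).IsPt w :=
  ⟨fun y hy => hw y ((X.orb_sub w hw x hx).2 hy), x, X.self_mem_orb w hw x hx,
    fun _ ⟨c, _, h⟩ => ⟨c, h⟩⟩
/-- any two points of a single point are proportional -/
lemma IsPt.exists_scal {P : Spc} {w : ℕ → ℤ} (h : P.IsPt w) {x y : Pt} (hx : x ∈ P.pts)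
    (hy : y ∈ P.pts) : ∃ c : ℕ → ℂ, (∀ b, c b ≠ 0) ∧ ∀ v, y v = c v.1 * x v := by
  obtain ⟨-, z, -, h⟩ := h
  obtain ⟨a, ha⟩ := h x hx
  obtain ⟨b, hb⟩ := h y hy
  exact exists_scal_of_minors hx hy fun u v e => by rw [ha, ha, hb, hb, e]; ring
lemma IsPt.sub_of_mem {P Z : Spc} {w : ℕ → ℤ} (h : P.IsPt w) (hB : P.B = Z.B) {x : Pt}
    (hx : x ∈ P.pts) (hZ : x ∈ Z.pts) : P.Sub Z :=
  ⟨hB, fun y hy => by
    obtain ⟨c, hc, e⟩ := h.exists_scal hx hy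
    exact (funext e : y = bsc c x) ▸ bsc_mem hZ fun b _ => hc b⟩
lemma TTriv.sub {Z X : Spc} {w : ℕ → ℤ} (h : X.TTriv w) (hZ : Z.Sub X) : Z.TTriv w :=
  fun x hx => h x (hZ.2 hx)
lemma TTriv.fib {X Y : Spc} {w : ℕ → ℤ} (h : X.TTriv w) (h' : Y.TTriv w) : (fib X Y).TTriv w :=
  fun _ hz v hv => (Finset.mem_union.1 (hz.2.2 v hv)).elim
    (fun hb => h _ hz.1 v (restr_ne.2 ⟨hb, hv⟩)) fun hb => h' _ hz.2.1 v (restr_ne.2 ⟨hb, hv⟩)
/-- the part of `X` where every block `b` lives in weight `w b` -/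
def fix (X : Spc) (w : ℕ → ℤ) : Spc :=
  X.cut {r | ∃ v : Var, v.2.2 ≠ w v.1 ∧ r = MvPolynomial.X v}
    (by rintro r ⟨v, -, rfl⟩; exact ⟨_, Hmg.X v⟩)
@[simp] lemma fix_B (X : Spc) (w : ℕ → ℤ) : (X.fix w).B = X.B := rfl
lemma mem_fix {X : Spc} {w : ℕ → ℤ} {x : Pt} :
    x ∈ (X.fix w).pts ↔ x ∈ X.pts ∧ ∀ v : Var, x v ≠ 0 → v.2.2 = w v.1 :=
  and_congr_right fun _ => ⟨fun h v hv => by_contra fun hn => hv (by simpa using h _ ⟨v, hn, rfl⟩),
    fun h r ⟨v, hv, e⟩ => by rw [e, eval_X]; exact by_contra fun h' => hv (h v h')⟩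
lemma fix_sub (X : Spc) (w : ℕ → ℤ) : (X.fix w).Sub X := cut_sub _ _ _
lemma fix_ttriv (X : Spc) (w : ℕ → ℤ) : (X.fix w).TTriv w := fun _ hx => (mem_fix.1 hx).2
lemma TTriv.sub_fix {Z X : Spc} {w : ℕ → ℤ} (h : Z.TTriv w) (hZ : Z.Sub X) : Z.Sub (X.fix w) :=
  ⟨hZ.1, fun x hx => mem_fix.2 ⟨hZ.2 hx, h x hx⟩⟩

/-- noetherian induction -/
lemma noeth_ind {P : Spc → Prop} (h : ∀ X : Spc, (∀ Z : Spc, Z.Sub X → Z.pts ≠ X.pts → P Z) → P X)
    (X : Spc) : P X := by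
  suffices H : ∀ J : Ideal (R ⧸ X.I), ∀ Z : Spc, Z.Sub X → Z.I.map (Ideal.Quotient.mk X.I) = J → P Z
    from H _ X (Sub.refl X) rfl
  intro J
  induction J using IsNoetherian.induction with
  | hgt J ih =>
    intro Z hZ e
    refine h Z fun Z' h1 h2 => ih _ ?_ Z' (h1.trans hZ) rfl
    rw [← e]
    refine lt_of_le_of_ne (Ideal.map_mono h1.I_le) fun e' => h2 ?_
    have := congrArg (Ideal.comap (Ideal.Quotient.mk X.I)) e'
    rw [Ideal.comap_map_quotientMk, Ideal.comap_map_quotientMk, sup_eq_right.2 hZ.I_le,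
      sup_eq_right.2 (h1.trans hZ).I_le] at this
    rw [eq_of_I_eq h1.1 this.symm]
lemma Irred.nonempty {X : Spc} (h : X.Irred) : X.pts.Nonempty :=
  Set.nonempty_iff_ne_empty.2 fun e => h.ne_top (I_eq_top_iff.2 e)
lemma irred_of {X : Spc} (hn : X.pts.Nonempty) (h : ∀ Z₁ Z₂ : Spc, Z₁.Sub X → Z₂.Sub X →
    X.pts ⊆ Z₁.pts ∪ Z₂.pts → Z₁.pts = X.pts ∨ Z₂.pts = X.pts) : X.Irred := by
  refine isPrime_of_hmg (fun _ => Spc.gam_mem_I) (fun e => hn.ne_empty (I_eq_top_iff.1 e))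
    fun d e r s hr hs hrs => ?_
  refine (h (X.cut {r} (by rintro _ rfl; exact ⟨d, hr⟩)) (X.cut {s} (by rintro _ rfl; exact ⟨e, hs⟩))
    (cut_sub _ _ _) (cut_sub _ _ _) fun x hx => ?_).imp (fun e x hx => ?_) fun e x hx => ?_
  · have := hrs x hx
    rw [map_mul, mul_eq_zero] at this
    exact this.imp (fun h => ⟨hx, by rintro _ rfl; exact h⟩) fun h => ⟨hx, by rintro _ rfl; exact h⟩
  · exact (e.ge hx).2 r rfl
  · exact (e.ge hx).2 s rfl
lemma Irred.sub_or {X Z₁ Z₂ Y : Spc} (h : X.Irred) (hX : X.Sub Y) (h₁ : Z₁.Sub Y) (h₂ : Z₂.Sub Y)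
    (hc : X.pts ⊆ Z₁.pts ∪ Z₂.pts) : X.Sub Z₁ ∨ X.Sub Z₂ := by
  have : Z₁.I ⊓ Z₂.I ≤ X.I := fun r hr x hx => (hc hx).elim (hr.1 x) (hr.2 x)
  exact ((Ideal.IsPrime.inf_le h).1 this).imp
    (fun h' => ⟨hX.1.trans h₁.1.symm, pts_subset_of_I_le (hX.1.trans h₁.1.symm) h'⟩)
    fun h' => ⟨hX.1.trans h₂.1.symm, pts_subset_of_I_le (hX.1.trans h₂.1.symm) h'⟩
lemma Irred.conn {X : Spc} (h : X.Irred) : X.Conn := by
  refine ⟨h.nonempty, fun Z₁ Z₂ h₁ h₂ hc hd => ?_⟩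
  rcases h.sub_or (Sub.refl X) h₁ h₂ hc with h' | h'
  · exact Or.inr (Set.eq_empty_of_forall_notMem fun x hx =>
      Set.disjoint_left.1 hd (h'.2 (h₂.2 hx)) hx)
  · exact Or.inl (Set.eq_empty_of_forall_notMem fun x hx =>
      Set.disjoint_left.1 hd hx (h'.2 (h₁.2 hx)))
/-- on an irreducible space two non-empty basic open sets meet -/
lemma Irred.exists_ne {X : Spc} (h : X.Irred) {r s : R} (hr : r ∉ X.I) (hs : s ∉ X.I) :
    ∃ z ∈ X.pts, eval z r ≠ 0 ∧ eval z s ≠ 0 := by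
  by_contra hn
  push Not at hn
  refine (h.mem_or_mem (x := r) (y := s) fun z hz => ?_).elim hr hs
  rw [map_mul, mul_eq_zero, or_iff_not_imp_left]
  exact hn z hz
lemma exists_irred_cover (X : Spc) : ∃ s : Finset Spc, (∀ Z ∈ s, Z.Sub X ∧ Z.Irred) ∧
    ∀ x ∈ X.pts, ∃ Z ∈ s, x ∈ Z.pts := by
  classical
  induction X using noeth_ind with
  | h X ih =>
    by_cases hi : X.Irred
    · exact ⟨{X}, by simpa using ⟨Sub.refl X, hi⟩, by simp⟩
    rcases X.pts.eq_empty_or_nonempty with hn | hn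
    · exact ⟨∅, by simp, by simp [hn]⟩
    have := mt (irred_of hn) hi
    push Not at this
    obtain ⟨Z₁, Z₂, h₁, h₂, hc, h3, h4⟩ := this
    obtain ⟨s₁, a₁, b₁⟩ := ih Z₁ h₁ h3
    obtain ⟨s₂, a₂, b₂⟩ := ih Z₂ h₂ h4
    refine ⟨s₁ ∪ s₂, fun Z hZ => ?_, fun x hx => ?_⟩
    · exact (Finset.mem_union.1 hZ).elim (fun h => ⟨(a₁ Z h).1.trans h₁, (a₁ Z h).2⟩)
        fun h => ⟨(a₂ Z h).1.trans h₂, (a₂ Z h).2⟩
    · rcases hc hx with h | h
      · obtain ⟨Z, h5, h6⟩ := b₁ x h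
        exact ⟨Z, Finset.mem_union_left _ h5, h6⟩
      · obtain ⟨Z, h5, h6⟩ := b₂ x h
        exact ⟨Z, Finset.mem_union_right _ h5, h6⟩
/-- irreducible components -/
lemma exists_components (X : Spc) : ∃ (n : ℕ) (Z : Fin n → Spc), (∀ i, (Z i).Sub X ∧ (Z i).Irred) ∧
    (∀ x ∈ X.pts, ∃ i, x ∈ (Z i).pts) ∧ ∀ i j, (Z i).pts ⊆ (Z j).pts → i = j := by
  classical
  have hex : ∃ n, ∃ s : Finset Spc, s.card = n ∧ (∀ Z ∈ s, Z.Sub X ∧ Z.Irred) ∧
      ∀ x ∈ X.pts, ∃ Z ∈ s, x ∈ Z.pts :=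
    let ⟨s, h⟩ := X.exists_irred_cover; ⟨_, s, rfl, h⟩
  obtain ⟨s, hs, h1, h2⟩ := Nat.find_spec hex
  refine ⟨s.card, fun i => (s.equivFin.symm i).1, fun i => h1 _ (s.equivFin.symm i).2,
    fun x hx => ?_, fun i j hij => ?_⟩
  · obtain ⟨Z, hZ, hx⟩ := h2 x hx
    exact ⟨s.equivFin ⟨Z, hZ⟩, by simpa using hx⟩
  · by_contra hne
    have hne' : (s.equivFin.symm j).1 ≠ (s.equivFin.symm i).1 := fun e =>
      hne (s.equivFin.symm.injective (Subtype.ext e)).symm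
    refine Nat.find_min hex (m := (s.erase (s.equivFin.symm i).1).card) ?_
      ⟨_, rfl, fun Z hZ => h1 Z (Finset.mem_of_mem_erase hZ), fun x hx => ?_⟩
    · rw [← hs]; exact Finset.card_erase_lt_of_mem (s.equivFin.symm i).2
    · obtain ⟨Z, hZ, hx⟩ := h2 x hx
      by_cases e : Z = (s.equivFin.symm i).1
      · exact ⟨_, Finset.mem_erase.2 ⟨hne', (s.equivFin.symm j).2⟩, hij (by rw [e] at hx; exact hx)⟩
      · exact ⟨Z, Finset.mem_erase.2 ⟨e, hZ⟩, hx⟩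
lemma Irred.exists_sub {X Y : Spc} {ι : Type} [Finite ι] (h : X.Irred) (hX : X.Sub Y)
    (Z : ι → Spc) (hZ : ∀ i, (Z i).Sub Y) (hc : ∀ x ∈ X.pts, ∃ i, x ∈ (Z i).pts) :
    ∃ i, X.Sub (Z i) := by
  have := Fintype.ofFinite ι
  have : (Finset.univ : Finset ι).inf (fun i => (Z i).I) ≤ X.I := fun r hr x hx => by
    obtain ⟨i, hi⟩ := hc x hx
    exact (Finset.inf_le (f := fun i => (Z i).I) (Finset.mem_univ i) hr) x hi
  obtain ⟨i, -, hi⟩ := (Ideal.IsPrime.inf_le' h).1 this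
  exact ⟨i, hX.1.trans (hZ i).1.symm, pts_subset_of_I_le (hX.1.trans (hZ i).1.symm) hi⟩
lemma IsPt.irred {P : Spc} {w : ℕ → ℤ} (h : P.IsPt w) : P.Irred := by
  obtain ⟨x, hx, -⟩ := h.2
  refine irred_of ⟨x, hx⟩ fun Z₁ Z₂ h₁ h₂ hc => (hc hx).imp (fun h' => ?_) fun h' => ?_
  · exact h₁.2.antisymm (h.sub_of_mem h₁.1.symm hx h').2
  · exact h₂.2.antisymm (h.sub_of_mem h₂.1.symm hx h').2
/-- the ideal of a product of projective spaces -/
lemma mem_full_I {B : Finset ℕ} {V : Finset Var} (h : ∀ b ∈ B, ∃ v ∈ V, v.1 = b) {r : R} :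
    r ∈ (full B V).I ↔
      aeval (fun v : Var => if v ∈ V ∧ v.1 ∈ B then (MvPolynomial.X v : R) else 0) r = 0 := by
  classical
  have hev : ∀ (x : Pt) (r : R), eval x (aeval (fun v : Var =>
      if v ∈ V ∧ v.1 ∈ B then (MvPolynomial.X v : R) else 0) r) =
      eval (fun v => if v ∈ V ∧ v.1 ∈ B then x v else 0) r := fun x r => by
    induction r using MvPolynomial.induction_on with
    | C c => simp
    | add p q hp hq => simp only [map_add, hp, hq]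
    | mul_X p v hp => simp only [map_mul, hp, aeval_X, eval_X]; split_ifs <;> simp
  refine ⟨fun hr => ?_, fun hr x hx => ?_⟩
  · choose! u hu hu' using h
    have hρ : (∏ b ∈ B, MvPolynomial.X (u b) : R) ≠ 0 :=
      Finset.prod_ne_zero_iff.2 fun b _ => X_ne_zero _
    refine (mul_eq_zero.1 (MvPolynomial.funext fun x => ?_)).resolve_left hρ
    rw [map_mul, map_zero, hev, mul_eq_zero, or_iff_not_imp_left, map_prod]
    refine fun hx => hr _ ⟨fun b hb => ⟨u b, hu' b hb, ?_⟩, fun v hv => ?_⟩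
    · have := Finset.prod_ne_zero_iff.1 hx b hb
      rw [eval_X] at this
      simpa [hu b hb, hu' b hb, hb] using this
    · by_contra hn; exact hv (if_neg hn)
  · have := hev x r
    rw [hr, map_zero] at this
    rw [this]
    congr 2
    funext v
    split_ifs with hv
    · rfl
    · exact by_contra fun h' => hv (hx.2 v h')
lemma full_irred {B : Finset ℕ} {V : Finset Var} (h : ∀ b ∈ B, ∃ v ∈ V, v.1 = b) :
    (full B V).Irred := by
  have : (full B V).I = RingHom.ker (aeval (R := ℂ) (fun v : Var =>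
      if v ∈ V ∧ v.1 ∈ B then (MvPolynomial.X v : R) else 0)) :=
    Ideal.ext fun r => mem_full_I h
  rw [Irred, this]
  exact RingHom.ker_isPrime _

/-- locally constant functions on a space -/
def LC (X : Spc) {α : Type*} (f : Pt → α) : Prop :=
  ∀ x ∈ X.pts, ∃ r : R, eval x r ≠ 0 ∧ ∀ y ∈ X.pts, eval y r ≠ 0 → f y = f x
/-- upper semicontinuous -/
def USC (X : Spc) (f : Pt → ℤ) : Prop :=
  ∀ x ∈ X.pts, ∃ r : R, eval x r ≠ 0 ∧ ∀ y ∈ X.pts, eval y r ≠ 0 → f y ≤ f x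
lemma USC.add {X : Spc} {f g : Pt → ℤ} (hf : X.USC f) (hg : X.USC g) : X.USC (f + g) := fun x hx => by
  obtain ⟨r, h1, h2⟩ := hf x hx
  obtain ⟨s, h3, h4⟩ := hg x hx
  refine ⟨r * s, by rw [map_mul]; exact mul_ne_zero h1 h3, fun y hy h => ?_⟩
  rw [map_mul] at h
  exact add_le_add (h2 y hy (left_ne_zero_of_mul h)) (h4 y hy (right_ne_zero_of_mul h))
lemma LC.usc {X : Spc} {f : Pt → ℤ} (hf : X.LC f) : X.USC f := fun x hx =>
  let ⟨r, h1, h2⟩ := hf x hx; ⟨r, h1, fun y hy h => (h2 y hy h).le⟩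
lemma LC.comp {X : Spc} {α β : Type*} {f : Pt → α} (hf : X.LC f) (g : α → β) :
    X.LC fun x => g (f x) := fun x hx =>
  let ⟨r, h1, h2⟩ := hf x hx; ⟨r, h1, fun y hy h => congrArg g (h2 y hy h)⟩
lemma LC.prod {X : Spc} {α β : Type*} {f : Pt → α} {g : Pt → β} (hf : X.LC f) (hg : X.LC g) :
    X.LC fun x => (f x, g x) := fun x hx => by
  obtain ⟨r, h1, h2⟩ := hf x hx
  obtain ⟨s, h3, h4⟩ := hg x hx
  refine ⟨r * s, by rw [map_mul]; exact mul_ne_zero h1 h3, fun y hy h => ?_⟩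
  rw [map_mul] at h
  exact Prod.ext (h2 y hy (left_ne_zero_of_mul h)) (h4 y hy (right_ne_zero_of_mul h))
lemma LC.mono {Z X : Spc} {α : Type*} {f : Pt → α} (hf : X.LC f) (h : Z.pts ⊆ X.pts) : Z.LC f :=
  fun x hx => let ⟨r, h1, h2⟩ := hf x (h hx); ⟨r, h1, fun y hy => h2 y (h hy)⟩
lemma USC.mono {Z X : Spc} {f : Pt → ℤ} (hf : X.USC f) (h : Z.pts ⊆ X.pts) : Z.USC f :=
  fun x hx => let ⟨r, h1, h2⟩ := hf x (h hx); ⟨r, h1, fun y hy => h2 y (h hy)⟩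
lemma LC.pull {Y X : Spc} {α : Type*} {f : Pt → α} (hf : X.LC f) (h : Proj Y X) :
    Y.LC fun y => f (restr X.B y) := fun y hy =>
  let ⟨r, h1, h2⟩ := hf _ (h.map y hy)
  ⟨kill X.B r, by rwa [eval_kill], fun z hz h0 => h2 _ (h.map z hz) (by rwa [eval_kill] at h0)⟩
lemma USC.pull {Y X : Spc} {f : Pt → ℤ} (hf : X.USC f) (h : Proj Y X) :
    Y.USC fun y => f (restr X.B y) := fun y hy =>
  let ⟨r, h1, h2⟩ := hf _ (h.map y hy)
  ⟨kill X.B r, by rwa [eval_kill], fun z hz h0 => h2 _ (h.map z hz) (by rwa [eval_kill] at h0)⟩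
lemma LC.neg_usc {X : Spc} {f : Pt → ℤ} (hf : X.LC f) : X.USC (-f) := (hf.comp Neg.neg).usc
lemma lc_of_usc {X : Spc} {f : Pt → ℤ} (h : X.USC f) (h' : X.USC (-f)) : X.LC f := fun x hx => by
  obtain ⟨r, h1, h2⟩ := h x hx
  obtain ⟨s, h3, h4⟩ := h' x hx
  refine ⟨r * s, by rw [map_mul]; exact mul_ne_zero h1 h3, fun y hy h => ?_⟩
  rw [map_mul] at h
  exact le_antisymm (h2 y hy (left_ne_zero_of_mul h))
    (neg_le_neg_iff.1 (h4 y hy (right_ne_zero_of_mul h)))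
/-- two upper semicontinuous functions with locally constant sum are locally constant -/
lemma lc_of_add {X : Spc} {f g : Pt → ℤ} (hf : X.USC f) (hg : X.USC g) (h : X.LC (f + g)) :
    X.LC f := by
  refine lc_of_usc hf ?_
  have := hg.add h.neg_usc
  rwa [show g + -(f + g) = -f by abel] at this
lemma LC.finite_range {X : Spc} {α : Type*} {f : Pt → α} (hf : X.LC f) :
    (f '' X.pts).Finite := by
  choose! r h1 h2 using hf
  obtain ⟨s, hs, hc⟩ := X.exists_finite_cover r h1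
  refine (s.finite_toSet.image f).subset ?_
  rintro _ ⟨y, hy, rfl⟩
  obtain ⟨x, hx, h⟩ := hc y hy
  exact ⟨x, hx, (h2 x (hs hx) y hy h).symm⟩
/-- level sets of invariant locally constant functions -/
def level (X : Spc) {α : Type*} (f : Pt → α) (hf : X.LC f) (hi : ∀ x ∈ X.pts, f (gpt x) = f x)
    (a : α) : Spc :=
  X.ofClosed {x | x ∈ X.pts ∧ f x = a} (fun _ h => h.1)
    (fun x hx hn => let ⟨r, h1, h2⟩ := hf x hx
      ⟨r, h1, fun y hy => by_contra fun h => hn ⟨hx, (h2 y hy.1 h).symm.trans hy.2⟩⟩)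
    (fun x hx => ⟨X.inv x hx.1, (hi x hx.1).trans hx.2⟩)
@[simp] lemma level_B (X : Spc) {α : Type*} (f : Pt → α) (hf hi a) :
    (X.level f hf hi a).B = X.B := rfl
@[simp] lemma mem_level {X : Spc} {α : Type*} {f : Pt → α} {hf hi a} {x : Pt} :
    x ∈ (X.level f hf hi a).pts ↔ x ∈ X.pts ∧ f x = a := Iff.rfl
lemma level_sub (X : Spc) {α : Type*} (f : Pt → α) (hf hi a) : (X.level f hf hi a).Sub X :=
  ofClosed_sub _ _ _ _ _
/-- superlevel sets of invariant upper semicontinuous functions -/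
def superlevel (X : Spc) (f : Pt → ℤ) (hf : X.USC f) (hi : ∀ x ∈ X.pts, f (gpt x) = f x)
    (a : ℤ) : Spc :=
  X.ofClosed {x | x ∈ X.pts ∧ a ≤ f x} (fun _ h => h.1)
    (fun x hx hn => let ⟨r, h1, h2⟩ := hf x hx
      ⟨r, h1, fun y hy => by_contra fun h => hn ⟨hx, hy.2.trans (h2 y hy.1 h)⟩⟩)
    (fun x hx => ⟨X.inv x hx.1, hx.2.trans (hi x hx.1).ge⟩)
@[simp] lemma superlevel_B (X : Spc) (f : Pt → ℤ) (hf hi a) :
    (X.superlevel f hf hi a).B = X.B := rfl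
@[simp] lemma mem_superlevel {X : Spc} {f : Pt → ℤ} {hf hi a} {x : Pt} :
    x ∈ (X.superlevel f hf hi a).pts ↔ x ∈ X.pts ∧ a ≤ f x := Iff.rfl
lemma superlevel_sub (X : Spc) (f : Pt → ℤ) (hf hi a) : (X.superlevel f hf hi a).Sub X :=
  ofClosed_sub _ _ _ _ _
lemma Conn.const {X : Spc} (h : X.Conn) {α : Type*} {f : Pt → α} (hf : X.LC f)
    (hi : ∀ x ∈ X.pts, f (gpt x) = f x) {x y : Pt} (hx : x ∈ X.pts) (hy : y ∈ X.pts) :
    f x = f y := by
  have hf' := hf.comp fun a => a = f y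
  have hi' : ∀ z ∈ X.pts, (f (gpt z) = f y) = (f z = f y) := fun z hz => by rw [hi z hz]
  rcases h.2 (X.level _ hf' hi' True) (X.level _ hf' hi' False) (level_sub _ _ _ _ _)
    (level_sub _ _ _ _ _) (fun z hz => by by_cases e : f z = f y <;> simp [hz, e])
    (Set.disjoint_left.2 fun z h1 h2 => by simp_all) with h' | h'
  · exact absurd (h' ▸ (show y ∈ (X.level _ hf' hi' True).pts from ⟨hy, by simp⟩)) (Set.notMem_empty y)
  · by_contra e
    exact absurd (h' ▸ (show x ∈ (X.level _ hf' hi' False).pts from ⟨hx, by simp [e]⟩))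
      (Set.notMem_empty x)
lemma Irred.const {X : Spc} (h : X.Irred) {α : Type*} {f : Pt → α} (hf : X.LC f)
    {x y : Pt} (hx : x ∈ X.pts) (hy : y ∈ X.pts) : f x = f y := by
  obtain ⟨r, h1, h2⟩ := hf x hx
  obtain ⟨s, h3, h4⟩ := hf y hy
  obtain ⟨z, hz, h5, h6⟩ := h.exists_ne (r := r) (s := s) (fun h => h1 (h x hx)) fun h => h3 (h y hy)
  exact (h2 z hz h5).symm.trans (h4 z hz h6)

end Spc
end Crest.Agent.N265
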