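import Crest.Agent.N265.Sp.Basic

/-! # Row 265: elimination theory, images of spaces, connectedness and irreducibility of products -/

set_option autoImplicit false
noncomputable section
open MvPolynomial

namespace Crest.Agent.N265
open Sp

namespace Sp

/-- kill the variables of the block `b` -/
def kb (b : ℕ) : R →ₐ[ℂ] R := aeval fun v : Var => if v.1 = b then 0 else X v
/-- substitute `x` outside the block `b` -/
def sb (b : ℕ) (x : Pt) : R →ₐ[ℂ] R := aeval fun v : Var => if v.1 = b then X v else C (x v)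

lemma eval_aeval' (f : Var → R) (y : Pt) (r : R) :
    eval y (aeval f r) = eval (fun v => eval y (f v)) r := by
  induction r using MvPolynomial.induction_on with
  | C c => simp
  | add p q hp hq => simp only [map_add, hp, hq]
  | mul_X p v hp => simp only [map_mul, hp, aeval_X, eval_X]
lemma eval_kb (b : ℕ) (y : Pt) (r : R) :
    eval y (kb b r) = eval (fun v => if v.1 = b then 0 else y v) r := by
  rw [kb, eval_aeval']; congr 2; funext v; split_ifs <;> simp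
lemma eval_sb (b : ℕ) (x y : Pt) (r : R) :
    eval y (sb b x r) = eval (fun v => if v.1 = b then y v else x v) r := by
  rw [sb, eval_aeval']; congr 2; funext v; split_ifs <;> simp
lemma eval_monomial_congr {x y : Pt} {d : Var →₀ ℕ} (h : ∀ v ∈ d.support, x v = y v) (c : ℂ) :
    eval x (monomial d c) = eval y (monomial d c) := by
  rw [eval_monomial, eval_monomial]
  congr 1
  exact Finsupp.prod_congr fun v hv => by rw [h v hv]

/-- the degree in the block `b` -/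
def bw (b : ℕ) (v : Var) : ℤ := if v.1 = b then 1 else 0
lemma weight_bw (b : ℕ) (d : Var →₀ ℕ) :
    Finsupp.weight (bw b) d = Finsupp.weight vdeg d (some b) := by
  induction d using Finsupp.induction_linear with
  | zero => simp
  | add s t hs ht => simp [hs, ht]
  | single v n =>
    rw [Finsupp.weight_single, Finsupp.weight_single]
    simp [bw, vdeg, eB, eT, Finsupp.single_apply]
lemma _root_.Crest.Agent.N265.Hmg.isWH_bw {d : D} {r : R} (h : Hmg d r) (b : ℕ) :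
    IsWeightedHomogeneous (bw b) r (d (some b)) :=
  fun s hs => by rw [weight_bw, hmg_iff.1 h hs]
lemma whc_bw_mem {J : Ideal R} (hJ : ∀ r ∈ J, gam r ∈ J) (b : ℕ) (m : ℤ) {r : R} (hr : r ∈ J) :
    weightedHomogeneousComponent (bw b) m r ∈ J := by
  obtain ⟨s, hs, -⟩ := exists_sum_hc r
  rw [← hs, map_sum]
  refine J.sum_mem fun d _ => ?_
  by_cases e : m = d (some b)
  · rw [e, ((hc_hmg d r).isWH_bw b).weightedHomogeneousComponent_same]
    exact hc_mem_ideal hJ hr d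
  · rw [((hc_hmg d r).isWH_bw b).weightedHomogeneousComponent_ne m e]
    exact J.zero_mem
lemma weight_bw_of_supp {b : ℕ} {t : Var →₀ ℕ} (h : ∀ v ∈ t.support, v.1 = b) :
    Finsupp.weight (bw b) t = (t.sum fun _ n => n : ℕ) := by
  rw [Finsupp.weight_apply, Finsupp.sum, Finsupp.sum, Nat.cast_sum]
  exact Finset.sum_congr rfl fun v hv => by simp [bw, h v hv]
lemma weight_bw_of_supp' {b : ℕ} {t : Var →₀ ℕ} (h : ∀ v ∈ t.support, v.1 ≠ b) :
    Finsupp.weight (bw b) t = 0 := by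
  rw [Finsupp.weight_apply, Finsupp.sum]
  exact Finset.sum_eq_zero fun v hv => by simp [bw, h v hv]

/-- the degree `m` part of `p - sb b x p` lies in `𝔪_x · (monomials of degree m)` -/
lemma elim_step {J : Ideal R} (V : Finset Var) (hV : ∀ v ∉ V, (X v : R) ∈ J) (b : ℕ) (x : Pt)
    (m : ℕ) (p : R) : ∃ a : ↥((V.filter fun v => v.1 = b).finsuppAntidiag m) → R,
      (∀ t, eval x (kb b (a t)) = 0) ∧ weightedHomogeneousComponent (bw b) (m : ℤ) (p - sb b x p) -
        ∑ t, kb b (a t) * monomial t.1 1 ∈ J := by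
  classical
  induction p using MvPolynomial.induction_on' with
  | add p q hp hq =>
    obtain ⟨a, h1, h2⟩ := hp
    obtain ⟨a', h3, h4⟩ := hq
    refine ⟨a + a', fun t => by simp [h1, h3], ?_⟩
    convert J.add_mem h2 h4 using 1
    simp only [map_add, map_sub, Pi.add_apply, add_mul, Finset.sum_add_distrib]
    ring
  | monomial d c =>
    set db := d.filter fun v => v.1 = b
    set dn := d.filter fun v => ¬ v.1 = b
    have hb : ∀ v ∈ db.support, v.1 = b := fun v hv => by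
      simp only [db, Finsupp.support_filter, Finset.mem_filter] at hv; exact hv.2
    have hn : ∀ v ∈ dn.support, v.1 ≠ b := fun v hv => by
      simp only [dn, Finsupp.support_filter, Finset.mem_filter] at hv; exact hv.2
    have e1 : (monomial d c : R) = monomial dn c * monomial db 1 := by
      rw [monomial_mul, mul_one, add_comm, Finsupp.filter_add_filter_not]
    set q : R := monomial dn c - C (eval x (monomial dn c))
    have e2 : monomial d c - sb b x (monomial d c) = q * monomial db 1 := by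
      refine MvPolynomial.funext fun y => ?_
      rw [map_sub, eval_sb, e1, map_mul, map_mul, map_mul, map_sub, eval_C,
        eval_monomial_congr (x := fun v => if v.1 = b then y v else x v) (y := x)
          (fun v hv => if_neg (hn v hv)),
        eval_monomial_congr (x := fun v => if v.1 = b then y v else x v) (y := y)
          (fun v hv => if_pos (hb v hv))]
      ring
    have e3 : kb b q = q := by
      refine MvPolynomial.funext fun y => ?_
      rw [eval_kb, map_sub, map_sub, eval_C, eval_C,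
        eval_monomial_congr (y := y) (fun v hv => if_neg (hn v hv))]
    have hq : IsWeightedHomogeneous (bw b) (q * monomial db 1) (db.sum fun _ n => n : ℕ) := by
      have := (((isWeightedHomogeneous_monomial (bw b) dn c (weight_bw_of_supp' hn)).sub
        (isWeightedHomogeneous_C (bw b) (eval x (monomial dn c)))).mul
        (isWeightedHomogeneous_monomial (bw b) db (1 : ℂ) (weight_bw_of_supp hb)))
      rwa [zero_add] at this
    rw [e2]
    by_cases hm : (db.sum fun _ n => n) = m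
    · rw [← hm, hq.weightedHomogeneousComponent_same]
      by_cases hs : db.support ⊆ V
      · have ht : db ∈ (V.filter fun v => v.1 = b).finsuppAntidiag (db.sum fun _ n => n) :=
          Finset.mem_finsuppAntidiag'.2 ⟨rfl, fun v hv => Finset.mem_filter.2 ⟨hs hv, hb v hv⟩⟩
        refine ⟨Pi.single ⟨db, ht⟩ q, fun t => ?_, ?_⟩
        · by_cases e : t = ⟨db, ht⟩
          · rw [e, Pi.single_eq_same, e3]; simp [q]
          · rw [Pi.single_eq_of_ne e]; simp
        · rw [Finset.sum_eq_single ⟨db, ht⟩ (fun t _ e => by rw [Pi.single_eq_of_ne e]; simp)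
            (by simp), Pi.single_eq_same, e3, sub_self]
          exact J.zero_mem
      · obtain ⟨v, hv, hv'⟩ := Finset.not_subset.1 hs
        refine ⟨0, by simp, ?_⟩
        simp only [Pi.zero_apply, map_zero, zero_mul, Finset.sum_const_zero, sub_zero]
        refine J.mul_mem_left _ (J.mem_of_dvd ?_ (hV v hv'))
        exact X_dvd_monomial.2 (Or.inr (Finsupp.mem_support_iff.1 hv))
    · rw [hq.weightedHomogeneousComponent_ne _ (by exact_mod_cast Ne.symm hm)]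
      exact ⟨0, by simp, by simp⟩

/-- the determinant trick -/
lemma det_trick {A k ι : Type*} [CommRing A] [CommRing k] [Nontrivial k] [Fintype ι] (J : Ideal A)
    (κ : A →+* A) (ev : A →+* k) (a : ι → ι → A) (u : ι → A) (h1 : ∀ s t, ev (κ (a s t)) = 0)
    (h2 : ∀ s, u s - ∑ t, κ (a s t) * u t ∈ J) :
    ∃ r : A, ev (κ r) ≠ 0 ∧ ∀ s, κ r * u s ∈ J := by
  classical
  let M : Matrix ι ι A := 1 - Matrix.of a
  let π : A →+* A ⧸ J := (Ideal.Quotient.mk J).comp κ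
  have hA : (M.map π).mulVec (fun t => Ideal.Quotient.mk J (u t)) = 0 := by
    funext s
    have := Ideal.Quotient.eq_zero_iff_mem.2 (h2 s)
    rw [map_sub, map_sum] at this
    rw [← RingHom.mapMatrix_apply, map_sub, map_one, Matrix.sub_mulVec, Matrix.one_mulVec]
    simpa [Matrix.mulVec, dotProduct, π] using this
  refine ⟨M.det, ?_, fun s => ?_⟩
  · have : ev (κ M.det) = (M.map (ev.comp κ)).det := by
      rw [← RingHom.mapMatrix_apply, ← RingHom.map_det]; rfl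
    rw [this, ← RingHom.mapMatrix_apply, map_sub, map_one]
    have h0 : (ev.comp κ).mapMatrix (Matrix.of a) = 0 := by
      ext s t; simpa using h1 s t
    simp [h0]
  · have h3 := congrArg (fun u => ((M.map π).adjugate.mulVec u) s) hA
    simp only [Matrix.mulVec_mulVec, Matrix.adjugate_mul, Matrix.smul_mulVec, Matrix.one_mulVec,
      Matrix.mulVec_zero, Pi.smul_apply, smul_eq_mul, Pi.zero_apply] at h3
    rw [← RingHom.mapMatrix_apply, ← RingHom.map_det] at h3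
    rw [← Ideal.Quotient.eq_zero_iff_mem, map_mul]
    exact h3

/-- **Elimination** of one block: if the zero set of `J` has no point over `x` that is non-zero in
the block `b`, then `J` contains `r · X v ^ m` with `r` free of the block `b` and `r(x) ≠ 0`. -/
theorem elim_ideal {J : Ideal R} (hJ : ∀ r ∈ J, gam r ∈ J) (V : Finset Var)
    (hV : ∀ v ∉ V, (X v : R) ∈ J) (b : ℕ) (x : Pt)
    (hx : ∀ y : Pt, (∀ v : Var, v.1 ≠ b → y v = x v) → (∀ r ∈ J, eval y r = 0) →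
      ∀ v : Var, v.1 = b → y v = 0) :
    ∃ (r : R) (m : ℕ), eval x (kb b r) ≠ 0 ∧ ∀ v : Var, v.1 = b → kb b r * X v ^ m ∈ J := by
  classical
  have hs0 : ∀ r, sb b x (sb b 0 r) = sb b 0 r := fun r => MvPolynomial.funext fun y => by
    simp only [eval_sb]; congr 2; funext v; split_ifs <;> rfl
  have hs1 : ∀ r, sb b 0 (sb b x r) = sb b x r := fun r => MvPolynomial.funext fun y => by
    simp only [eval_sb]; congr 2; funext v; split_ifs <;> rfl
  let J' : Ideal R :=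
    { carrier := {r | ∃ f ∈ J, sb b 0 r = sb b x f}
      add_mem' := by
        rintro r s ⟨f, hf, e⟩ ⟨g, hg, e'⟩
        exact ⟨f + g, J.add_mem hf hg, by rw [map_add, map_add, e, e']⟩
      zero_mem' := ⟨0, J.zero_mem, by simp⟩
      smul_mem' := by
        rintro a r ⟨f, hf, e⟩
        exact ⟨sb b 0 a * f, J.mul_mem_left _ hf, by rw [smul_eq_mul, map_mul, map_mul, e, hs0]⟩ }
  have hX : ∀ v : Var, v.1 ≠ b → (X v : R) ∈ J' := fun v hv => ⟨0, J.zero_mem, by simp [sb, hv]⟩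
  have hV' : ∀ v ∉ V, (X v : R) ∈ J' := fun v hv => by
    by_cases e : v.1 = b
    · exact ⟨X v, hV v hv, by simp [sb, e]⟩
    · exact hX v e
  have key : ∀ v : Var, v.1 = b → ∃ k : ℕ, ∃ f ∈ J, (X v : R) ^ k = sb b x f := fun v hv => by
    obtain ⟨k, f, hf, e⟩ := nss J' V hV' (r := X v) fun y hy => by
      have := hx (fun v => if v.1 = b then y v else x v) (fun u hu => if_neg hu)
        (fun r hr => by rw [← eval_sb]; exact hy _ ⟨r, hr, hs1 r⟩) v hv
      simpa [hv] using this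
    exact ⟨k, f, hf, by simpa [sb, hv] using e⟩
  choose! k f hf he using key
  set Vb := V.filter fun v => v.1 = b
  set K := Vb.sup k
  set m := Vb.card * K + 1
  have hmon : ∀ s : ↥(Vb.finsuppAntidiag m), ∃ a : ↥(Vb.finsuppAntidiag m) → R,
      (∀ t, eval x (kb b (a t)) = 0) ∧
        (monomial s.1 1 : R) - ∑ t, kb b (a t) * monomial t.1 1 ∈ J := by
    rintro ⟨s, hs⟩
    obtain ⟨hs1, hs2⟩ := Finset.mem_finsuppAntidiag.1 hs
    have hsb : ∀ v ∈ s.support, v.1 = b := fun v hv => (Finset.mem_filter.1 (hs2 hv)).2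
    obtain ⟨v, hv, hlt⟩ : ∃ v ∈ Vb, K < s v := by
      refine Finset.exists_lt_of_sum_lt ?_
      rw [hs1, Finset.sum_const, smul_eq_mul]
      exact Nat.lt_succ_self _
    have hvb := (Finset.mem_filter.1 hv).2
    have hle : Finsupp.single v (k v) ≤ s :=
      Finsupp.single_le_iff.2 ((Finset.le_sup (f := k) hv).trans hlt.le)
    have e1 : (monomial s 1 : R) = sb b x (monomial (s - Finsupp.single v (k v)) 1 * f v) := by
      rw [map_mul, ← he v hvb, X_pow_eq_monomial]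
      have : sb b x (monomial (s - Finsupp.single v (k v)) 1) =
          monomial (s - Finsupp.single v (k v)) 1 := MvPolynomial.funext fun y => by
        rw [eval_sb]
        exact eval_monomial_congr (fun u hu => if_pos (hsb u (Finsupp.support_tsub hu))) _
      rw [this, monomial_mul, mul_one, tsub_add_cancel_of_le hle]
    obtain ⟨a, h1, h2⟩ := elim_step V hV b x m (-(monomial (s - Finsupp.single v (k v)) 1 * f v))
    refine ⟨a, h1, ?_⟩
    have hw : IsWeightedHomogeneous (bw b) (monomial s 1 : R) (m : ℤ) :=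
      isWeightedHomogeneous_monomial _ _ _ (by
        rw [weight_bw_of_supp hsb, (Finset.mem_finsuppAntidiag'.1 hs).1])
    rw [map_neg, ← e1, sub_neg_eq_add, map_add, map_neg, hw.weightedHomogeneousComponent_same] at h2
    have h3 := J.add_mem h2 (whc_bw_mem hJ b m (J.mul_mem_left
      (monomial (s - Finsupp.single v (k v)) 1) (hf v hvb)))
    convert h3 using 1
    ring
  choose a h1 h2 using hmon
  obtain ⟨r, h3, h4⟩ := det_trick J (kb b).toRingHom (eval x) a (fun t => monomial t.1 1) h1 h2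
  refine ⟨r, m, h3, fun v hv => ?_⟩
  by_cases hvV : v ∈ V
  · have ht : Finsupp.single v m ∈ Vb.finsuppAntidiag m := Finset.mem_finsuppAntidiag'.2
      ⟨by simp, Finsupp.support_single_subset.trans (by simp [Vb, hv, hvV])⟩
    rw [X_pow_eq_monomial]
    exact h4 ⟨_, ht⟩
  · exact J.mul_mem_left _ (J.pow_mem_of_mem (hV v hvV) _ (Nat.succ_pos _))

/-- the image under forgetting one block is closed -/
lemma closed_erase (Y : Spc) (b : ℕ) {x : Pt} (hx : Rel (Y.B.erase b) x)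
    (h : ∀ r : R, (∀ y ∈ restr (Y.B.erase b) '' Y.pts, eval y r = 0) → eval x r = 0) :
    x ∈ restr (Y.B.erase b) '' Y.pts := by
  by_cases hb : b ∈ Y.B
  swap
  · rw [Finset.erase_eq_of_notMem hb] at hx h ⊢
    have := Y.closed x hx fun r hr => h r (by rintro _ ⟨y, hy, rfl⟩; rw [Y.restr_eq hy]; exact hr y hy)
    exact ⟨x, this, Y.restr_eq this⟩
  by_contra hn
  have hx0 : ∀ v : Var, v.1 ∉ Y.B.erase b → x v = 0 := fun v hv => by
    simpa using h (X v) (by rintro _ ⟨y, -, rfl⟩; rw [eval_X, restr_of_notMem _ hv])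
  obtain ⟨V, -, hV⟩ := Y.exists_V
  obtain ⟨r, m, h1, h2⟩ := elim_ideal (fun _ => Spc.gam_mem_I) V hV b x fun y hy hI v hv => by
    by_contra h0
    refine hn ⟨y, Y.closed y (fun c hc => ?_) hI, funext fun u => ?_⟩
    · by_cases e : c = b
      · exact ⟨v, hv.trans e.symm, h0⟩
      · obtain ⟨u, h1, h2⟩ := hx c (Finset.mem_erase.2 ⟨e, hc⟩)
        exact ⟨u, h1, by rwa [hy u (h1 ▸ e)]⟩
    · by_cases hu : u.1 ∈ Y.B.erase b
      · rw [restr_of_mem _ hu, hy u (Finset.mem_erase.1 hu).1]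
      · rw [restr_of_notMem _ hu, hx0 u hu]
  refine h1 (h _ ?_)
  rintro _ ⟨y, hy, rfl⟩
  obtain ⟨v, hv, h0⟩ := Y.rel y hy b hb
  have := h2 v hv y hy
  rw [map_mul, map_pow, eval_X, mul_eq_zero, or_iff_left (pow_ne_zero _ h0), eval_kb] at this
  rw [eval_kb]
  refine Eq.trans ?_ this
  congr 2
  funext u
  split_ifs with hu
  · rfl
  · by_cases hu' : u.1 ∈ Y.B
    · exact restr_of_mem _ (Finset.mem_erase.2 ⟨hu, hu'⟩)
    · rw [restr_of_notMem _ fun h => hu' (Finset.mem_of_mem_erase h), eq_zero_of_notMem hy hu']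

/-- the image as a space, given closedness -/
def imgOf (Y : Spc) (B : Finset ℕ) (h : B ⊆ Y.B)
    (hc : ∀ x, Rel B x → (∀ r : R, (∀ y ∈ restr B '' Y.pts, eval y r = 0) → eval x r = 0) →
      x ∈ restr B '' Y.pts) : Spc where
  B := B
  pts := restr B '' Y.pts
  fin := by
    obtain ⟨V, -, h2⟩ := Y.fin
    refine ⟨V.filter fun v => v.1 ∈ B, fun v hv => (Finset.mem_filter.1 hv).2, ?_⟩
    rintro _ ⟨y, hy, rfl⟩ v hv
    by_contra h0
    rw [← ne_eq, restr_ne] at h0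
    exact hv (Finset.mem_filter.2 ⟨by_contra fun h' => h0.2 (h2 y hy v h'), h0.1⟩)
  rel := by rintro _ ⟨y, hy, rfl⟩; exact (rel_restr subset_rfl).2 (rel_mono (Y.rel y hy) h)
  closed := hc
  inv := by rintro _ ⟨y, hy, rfl⟩; exact ⟨gpt y, Y.inv y hy, restr_gpt _ _⟩

theorem img_closed (Y : Spc) (B : Finset ℕ) (h : B ⊆ Y.B) (x : Pt) (hx : Rel B x)
    (hr : ∀ r : R, (∀ y ∈ restr B '' Y.pts, eval y r = 0) → eval x r = 0) :
    x ∈ restr B '' Y.pts := by
  induction hn : (Y.B \ B).card generalizing Y with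
  | zero =>
    have e : Y.B = B := (Finset.sdiff_eq_empty_iff_subset.1 (Finset.card_eq_zero.1 hn)).antisymm h
    subst e
    have := Y.closed x hx fun r h' =>
      hr r (by rintro _ ⟨y, hy, rfl⟩; rw [Y.restr_eq hy]; exact h' y hy)
    exact ⟨x, this, Y.restr_eq this⟩
  | succ n ih =>
    obtain ⟨b, hb⟩ : (Y.B \ B).Nonempty := Finset.card_pos.1 (hn ▸ n.succ_pos)
    have hB : B ⊆ Y.B.erase b := fun c hc =>
      Finset.mem_erase.2 ⟨fun e => (Finset.mem_sdiff.1 hb).2 (e ▸ hc), h hc⟩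
    have e : restr B '' (imgOf Y _ (Finset.erase_subset b _) fun _ => closed_erase Y b).pts =
        restr B '' Y.pts := by
      change restr B '' (restr _ '' _) = _
      rw [Set.image_image]
      exact Set.image_congr fun y _ => restr_restr hB y
    rw [← e] at hr ⊢
    refine ih _ hB hr ?_
    change (Y.B.erase b \ B).card = n
    rw [Finset.erase_sdiff_comm, Finset.card_erase_of_mem hb, hn, Nat.add_sub_cancel]

end Sp

variable {X Y Z : Spc}

/-- elimination: the image of a space under a projection is a space -/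
def Spc.img (Y : Spc) (B : Finset ℕ) (h : B ⊆ Y.B) : Spc where
  B := B
  pts := restr B '' Y.pts
  fin := (imgOf Y B h (img_closed Y B h)).fin
  rel := (imgOf Y B h (img_closed Y B h)).rel
  closed := img_closed Y B h
  inv := (imgOf Y B h (img_closed Y B h)).inv
@[simp] lemma Spc.img_B (Y : Spc) (B : Finset ℕ) (h : B ⊆ Y.B) : (Y.img B h).B = B := rfl
lemma Spc.img_pts (Y : Spc) (B : Finset ℕ) (h : B ⊆ Y.B) : (Y.img B h).pts = restr B '' Y.pts := rfl
lemma Spc.mem_img {B : Finset ℕ} {h : B ⊆ Y.B} {x : Pt} :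
    x ∈ (Y.img B h).pts ↔ ∃ y ∈ Y.pts, restr B y = x := Iff.rfl
lemma Spc.proj_img (Y : Spc) (B : Finset ℕ) (h : B ⊆ Y.B) : Proj Y (Y.img B h) :=
  ⟨h, fun y hy => ⟨y, hy, rfl⟩⟩
lemma Proj.img_sub (h : Proj Y X) : (Y.img X.B h.sub).Sub X :=
  ⟨rfl, by rintro _ ⟨y, hy, rfl⟩; exact h.map y hy⟩
lemma Spc.img_mono (hZ : Z.Sub Y) (B : Finset ℕ) (h : B ⊆ Z.B) (h' : B ⊆ Y.B) :
    (Z.img B h).Sub (Y.img B h') := ⟨rfl, Set.image_mono hZ.2⟩
lemma Spc.mem_img_I {B : Finset ℕ} {h : B ⊆ Y.B} {r : R} : r ∈ (Y.img B h).I ↔ kill B r ∈ Y.I :=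
  ⟨fun hr y hy => by rw [eval_kill]; exact hr _ ⟨y, hy, rfl⟩, by
    rintro hr _ ⟨y, hy, rfl⟩; rw [← eval_kill]; exact hr y hy⟩
lemma Spc.TTriv.img {w : ℕ → ℤ} (hY : Y.TTriv w) (B : Finset ℕ) (h : B ⊆ Y.B) :
    (Y.img B h).TTriv w := by
  rintro _ ⟨y, hy, rfl⟩ v hv
  exact hY y hy v (restr_ne.1 hv).2
lemma Spc.Irred.img (hY : Y.Irred) (B : Finset ℕ) (h : B ⊆ Y.B) : (Y.img B h).Irred := by
  have : (Y.img B h).I = Y.I.comap (kill B) := Ideal.ext fun _ => Spc.mem_img_I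
  rw [Spc.Irred, this]
  exact Ideal.IsPrime.comap _ (hK := hY)
/-- a surjective projection from a connected space has connected target -/
lemma Spc.Conn.of_surj (hY : Y.Conn) (p : Proj Y X) (hs : ∀ x ∈ X.pts, ∃ y ∈ Y.pts, restr X.B y = x) :
    X.Conn := by
  obtain ⟨⟨y, hy⟩, h⟩ := hY
  refine ⟨⟨_, p.map y hy⟩, fun Z₁ Z₂ h₁ h₂ hc hd => ?_⟩
  have key : ∀ Z : Spc, Z.Sub X → (Y.fib Z).pts = ∅ → Z.pts = ∅ := fun Z hZ e =>
    Set.eq_empty_of_forall_notMem fun x hx => by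
      obtain ⟨y, hy, rfl⟩ := hs x (hZ.2 hx)
      exact Set.eq_empty_iff_forall_notMem.1 e y ((Spc.mem_fib_pre p hZ).2 ⟨hy, hx⟩)
  refine (h _ _ (Spc.fib_sub p h₁) (Spc.fib_sub p h₂) (fun z hz => ?_)
    (Set.disjoint_left.2 fun z h1 h2 => ?_)).imp (key Z₁ h₁) (key Z₂ h₂)
  · exact (hc (p.map z hz)).imp (fun h' => (Spc.mem_fib_pre p h₁).2 ⟨hz, h'⟩)
      fun h' => (Spc.mem_fib_pre p h₂).2 ⟨hz, h'⟩
  · exact Set.disjoint_left.1 hd ((Spc.mem_fib_pre p h₁).1 h1).2 ((Spc.mem_fib_pre p h₂).1 h2).2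
lemma Spc.Irred.of_surj (hY : Y.Irred) (p : Proj Y X)
    (hs : ∀ x ∈ X.pts, ∃ y ∈ Y.pts, restr X.B y = x) : X.Irred := by
  have : Y.img X.B p.sub = X := sub_antisymm p.img_sub ⟨rfl, hs⟩
  exact this ▸ hY.img _ _
lemma Spc.Conn.img (hY : Y.Conn) (B : Finset ℕ) (h : B ⊆ Y.B) : (Y.img B h).Conn :=
  hY.of_surj (Y.proj_img B h) fun _ hx => hx
/-- connected base, connected fibres -/
lemma Spc.conn_of_fibres (h : Proj Y X) (hX : X.Conn)
    (hf : ∀ x ∈ X.pts, (∃ y ∈ Y.pts, restr X.B y = x) ∧ ∀ Z₁ Z₂ : Spc, Z₁.Sub Y → Z₂.Sub Y →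
      Y.pts ⊆ Z₁.pts ∪ Z₂.pts → Disjoint Z₁.pts Z₂.pts → ∀ y₁ ∈ Z₁.pts, ∀ y₂ ∈ Z₂.pts,
        restr X.B y₁ = x → restr X.B y₂ = x → False) : Y.Conn := by
  obtain ⟨⟨x, hx⟩, hc⟩ := hX
  obtain ⟨⟨y, hy, -⟩, -⟩ := hf x hx
  refine ⟨⟨y, hy⟩, fun Z₁ Z₂ h₁ h₂ hu hd => ?_⟩
  have p₁ := h₁.proj.trans h
  have p₂ := h₂.proj.trans h
  refine (hc _ _ p₁.img_sub p₂.img_sub (fun x hx => ?_)
    (Set.disjoint_left.2 ?_)).imp Set.image_eq_empty.1 Set.image_eq_empty.1
  · obtain ⟨y, hy, rfl⟩ := (hf x hx).1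
    exact (hu hy).imp (fun h' => ⟨y, h', rfl⟩) fun h' => ⟨y, h', rfl⟩
  · rintro x ⟨y₁, hy₁, e₁⟩ ⟨y₂, hy₂, e₂⟩
    exact (hf x (e₁ ▸ p₁.map y₁ hy₁)).2 Z₁ Z₂ h₁ h₂ hu hd y₁ hy₁ y₂ hy₂ e₁ e₂

/-- torus orbits are irreducible -/
lemma Spc.orbit_or {y : Pt} (hy : y ∈ Y.pts) {r s : R} (h : r * s ∈ Y.I) :
    (∀ d, eval y (hc d r) = 0) ∨ ∀ d, eval y (hc d s) = 0 := by
  let J : Ideal R :=
    { carrier := {r | ∀ t : Tor, eval (tpt t y) r = 0}
      add_mem' := fun ha hb t => by rw [map_add, ha t, hb t, add_zero]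
      zero_mem' := fun t => map_zero _
      smul_mem' := fun c a ha t => by rw [smul_eq_mul, map_mul, ha t, mul_zero] }
  obtain ⟨g, hg⟩ : ∃ g : Tor, ∀ d, (g (Multiplicative.ofAdd d) : ℂ) = chi d :=
    ⟨{ toFun := fun d => Units.mk0 (chi d.toAdd) (chi_ne _)
       map_one' := by ext; simp
       map_mul' := fun a b => by ext; simp [chi_add] }, fun d => rfl⟩
  have hJ : ∀ r ∈ J, gam r ∈ J := fun r hr t => by
    rw [eval_gam, ← hr (g * t)]
    congr 2
    funext v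
    simp [gpt, tpt, hg, mul_assoc]
  have h1 : tpt 1 y = y := by funext v; simp [tpt]
  have hp : J.IsPrime := isPrime_of_hmg hJ
    (fun e => by simpa using ((Ideal.eq_top_iff_one J).1 e) 1) fun d e r s hr hs hrs => by
      have := hrs 1
      rw [h1, map_mul, mul_eq_zero] at this
      exact this.imp (fun h t => by rw [hr.eval_tpt, h, mul_zero])
        fun h t => by rw [hs.eval_tpt, h, mul_zero]
  refine (hp.mem_or_mem (x := r) (y := s) fun t => h _ (Y.tpt_mem t hy)).imp (fun h d => ?_)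
    fun h d => ?_ <;> exact h1 ▸ hc_mem_ideal hJ h d 1
lemma eval_gpt_of_hc {y : Pt} {r : R} (h : ∀ d, eval y (hc d r) = 0) :
    eval y r = 0 ∧ eval (gpt y) r = 0 := by
  obtain ⟨s, hs, -⟩ := exists_sum_hc r
  rw [← hs, map_sum, map_sum]
  exact ⟨Finset.sum_eq_zero fun d _ => h d,
    Finset.sum_eq_zero fun d _ => by rw [(hc_hmg d r).eval_gpt, h d, mul_zero]⟩
/-- connectedness for closed subsets that are not assumed invariant -/
lemma Spc.Conn.closed_cover (hY : Y.Conn) {S₁ S₂ : Set Pt} (h₁ : S₁ ⊆ Y.pts) (h₂ : S₂ ⊆ Y.pts)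
    (c₁ : ∀ x ∈ Y.pts, x ∉ S₁ → ∃ r : R, eval x r ≠ 0 ∧ ∀ y ∈ S₁, eval y r = 0)
    (c₂ : ∀ x ∈ Y.pts, x ∉ S₂ → ∃ r : R, eval x r ≠ 0 ∧ ∀ y ∈ S₂, eval y r = 0)
    (hu : Y.pts ⊆ S₁ ∪ S₂) (hd : Disjoint S₁ S₂) : S₁ = ∅ ∨ S₂ = ∅ := by
  have key : ∀ {S₁ S₂ : Set Pt}, S₁ ⊆ Y.pts →
      (∀ x ∈ Y.pts, x ∉ S₁ → ∃ r : R, eval x r ≠ 0 ∧ ∀ y ∈ S₁, eval y r = 0) →
      (∀ x ∈ Y.pts, x ∉ S₂ → ∃ r : R, eval x r ≠ 0 ∧ ∀ y ∈ S₂, eval y r = 0) →
      Y.pts ⊆ S₁ ∪ S₂ → Disjoint S₁ S₂ → ∀ x ∈ S₁, gpt x ∈ S₁ := by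
    intro S₁ S₂ h₁ c₁ c₂ hu hd x hx
    by_contra hn
    obtain ⟨r, h1, h2⟩ := c₁ _ (Y.inv x (h₁ hx)) hn
    obtain ⟨s, h3, h4⟩ := c₂ _ (h₁ hx) (Set.disjoint_left.1 hd hx)
    rcases Spc.orbit_or (h₁ hx) (r := r) (s := s) (fun z hz => by
      rw [map_mul, mul_eq_zero]; exact (hu hz).imp (h2 z) (h4 z)) with h | h
    · exact h1 (eval_gpt_of_hc h).2
    · exact h3 (eval_gpt_of_hc h).1
  exact hY.2 (Y.ofClosed S₁ h₁ c₁ (key h₁ c₁ c₂ hu hd))
    (Y.ofClosed S₂ h₂ c₂ (key h₂ c₂ c₁ (by rwa [Set.union_comm]) hd.symm))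
    (Y.ofClosed_sub _ _ _ _) (Y.ofClosed_sub _ _ _ _) hu hd
/-- locally constant functions on connected spaces are constant (no invariance needed) -/
lemma Spc.Conn.const' (h : X.Conn) {α : Type*} {f : Pt → α} (hf : X.LC f) {x y : Pt}
    (hx : x ∈ X.pts) (hy : y ∈ X.pts) : f x = f y := by
  rcases h.closed_cover (S₁ := {z | z ∈ X.pts ∧ f z = f y}) (S₂ := {z | z ∈ X.pts ∧ f z ≠ f y})
    (fun _ h => h.1) (fun _ h => h.1)
    (fun z hz hn => let ⟨r, h1, h2⟩ := hf z hz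
      ⟨r, h1, fun u hu => by_contra fun h => hn ⟨hz, (h2 u hu.1 h).symm.trans hu.2⟩⟩)
    (fun z hz hn => let ⟨r, h1, h2⟩ := hf z hz
      ⟨r, h1, fun u hu => by_contra fun h => hn ⟨hz, (h2 u hu.1 h) ▸ hu.2⟩⟩)
    (fun z hz => by by_cases e : f z = f y <;> simp [hz, e])
    (Set.disjoint_left.2 fun z h1 h2 => h2.2 h1.2) with h' | h'
  · exact absurd ⟨hy, rfl⟩ (Set.eq_empty_iff_forall_notMem.1 h' y)
  · exact by_contra fun e => Set.eq_empty_iff_forall_notMem.1 h' x ⟨hx, e⟩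

/-- translation of the argument -/
def Sp.tr (x : Pt) : R →ₐ[ℂ] R := aeval fun v => MvPolynomial.X v + C (x v)
lemma Sp.eval_tr (x y : Pt) (r : R) : eval y (tr x r) = eval (y + x) r := by
  rw [tr, eval_aeval']; congr 2; funext v; simp
lemma Sp.dAt_tr (x y ξ : Pt) (r : R) : dAt y ξ (tr x r) = dAt (y + x) ξ r := by
  induction r using MvPolynomial.induction_on with
  | C c => simp [tr]
  | add p q hp hq => simp only [map_add, dAt_add, hp, hq]
  | mul_X p v hp => rw [map_mul, dAt_mul, dAt_mul, hp, eval_tr, eval_tr]; simp [tr, dAt_add]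
lemma Sp.tr_mem_left (h : Disjoint X.B Y.B) {r : R} (hr : r ∈ (X.fib Y).I) {y : Pt}
    (hy : y ∈ Y.pts) : tr y r ∈ X.I :=
  fun x hx => by rw [eval_tr]; exact hr _ (Spc.add_mem_fib h hx hy).1
lemma Sp.tr_mem_right (h : Disjoint X.B Y.B) {r : R} (hr : r ∈ (X.fib Y).I) {x : Pt}
    (hx : x ∈ X.pts) : tr x r ∈ Y.I :=
  fun y hy => by rw [eval_tr, add_comm]; exact hr _ (Spc.add_mem_fib h hx hy).1

lemma Spc.Conn.fib (hX : X.Conn) (hY : Y.Conn) (h : Disjoint X.B Y.B) : (X.fib Y).Conn := by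
  refine Spc.conn_of_fibres (Spc.fib_fst X Y) hX fun x hx => ⟨?_, ?_⟩
  · obtain ⟨y, hy⟩ := hY.1
    exact ⟨_, (Spc.add_mem_fib h hx hy).1, (Spc.add_mem_fib h hx hy).2.1⟩
  intro Z₁ Z₂ h₁ h₂ hu hd z₁ hz₁ z₂ hz₂ e₁ e₂
  have cl : ∀ Z : Spc, Z.Sub (X.fib Y) → ∀ y ∈ Y.pts, y ∉ {y | y ∈ Y.pts ∧ y + x ∈ Z.pts} →
      ∃ r : R, eval y r ≠ 0 ∧ ∀ u ∈ {y | y ∈ Y.pts ∧ y + x ∈ Z.pts}, eval u r = 0 := by
    intro Z hZ y hy hn
    obtain ⟨-, -, r, h1, -, h2⟩ := hZ.exists_hmg (Spc.add_mem_fib h hx hy).1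
      fun h' => hn ⟨hy, by rwa [add_comm]⟩
    exact ⟨tr x r, by rwa [eval_tr, add_comm], fun u hu => by rw [eval_tr]; exact h1 _ hu.2⟩
  have ne : ∀ Z : Spc, Z.Sub (X.fib Y) → ∀ z ∈ Z.pts, restr X.B z = x →
      {y | y ∈ Y.pts ∧ y + x ∈ Z.pts} ≠ ∅ := fun Z hZ z hz e =>
    Set.Nonempty.ne_empty ⟨restr Y.B z, (hZ.2 hz).2.1, by
      rw [← e, add_comm, Spc.eq_add_of_mem_fib h (hZ.2 hz)]; exact hz⟩
  refine (hY.closed_cover (fun _ h => h.1) (fun _ h => h.1) (cl Z₁ h₁) (cl Z₂ h₂) (fun y hy => ?_)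
    (Set.disjoint_left.2 fun y h1 h2 => Set.disjoint_left.1 hd h1.2 h2.2)).elim
    (ne Z₁ h₁ z₁ hz₁ e₁) (ne Z₂ h₂ z₂ hz₂ e₂)
  exact (hu (Spc.add_mem_fib h hx hy).1).imp (fun h' => ⟨hy, by rwa [add_comm]⟩)
    fun h' => ⟨hy, by rwa [add_comm]⟩

lemma Spc.Irred.fib (hX : X.Irred) (hY : Y.Irred) (h : Disjoint X.B Y.B) : (X.fib Y).Irred := by
  refine ⟨fun e => ?_, fun {r s} hrs => ?_⟩
  · obtain ⟨x, hx⟩ := hX.nonempty
    obtain ⟨y, hy⟩ := hY.nonempty
    exact Set.eq_empty_iff_forall_notMem.1 (I_eq_top_iff.1 e) _ (Spc.add_mem_fib h hx hy).1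
  by_contra hn
  simp only [Spc.mem_I, not_or, not_forall] at hn
  obtain ⟨⟨z₁, h₁, e₁⟩, z₂, h₂, e₂⟩ := hn
  rw [← Spc.eq_add_of_mem_fib h h₁, ← eval_tr] at e₁
  rw [← Spc.eq_add_of_mem_fib h h₂, ← eval_tr] at e₂
  obtain ⟨x, hx, a₁, a₂⟩ := hX.exists_ne (fun h' => e₁ (h' _ h₁.1)) (fun h' => e₂ (h' _ h₂.1))
  rw [eval_tr, add_comm, ← eval_tr] at a₁ a₂
  obtain ⟨y, hy, b₁, b₂⟩ := hY.exists_ne (fun h' => a₁ (h' _ h₁.2.1)) (fun h' => a₂ (h' _ h₂.2.1))
  have := tr_mem_right h hrs hx y hy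
  rw [map_mul, map_mul] at this
  exact mul_ne_zero b₁ b₂ this

end Crest.Agent.N265
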