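import Crest.Agent.N265.Sp.Basic
import Crest.Agent.N265.Jac.Fib

/-! # Task SP2: local dimension, Jacobian criterion, irreducibility, Hartogs
(use `Ideal.height_le_height_add_*`, R188/Noe2, Noe3: regular ⇒ CM domain, going down, Noether normalisation) -/

set_option autoImplicit false
noncomputable section
open MvPolynomial Module

namespace Crest.Agent.N265
variable {X Y Z W : Spc}

/-- local ring of `V(J)` at `x` has this dimension -/
def ldimI (J : Ideal R) (x : Pt) : ℕ∞ := ((mx x).map (Ideal.Quotient.mk J)).height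
lemma Spc.ldim_eq (X : Spc) (x : Pt) : X.ldim x = ldimI X.I x := rfl
lemma finite_TanI {J : Ideal R} (V : Finset Var) (hV : ∀ v ∉ V, (MvPolynomial.X v : R) ∈ J) (x : Pt) :
    Module.Finite ℂ (TanI J x) := Jac.FinJ.finite_tan ⟨V, hV⟩ x
instance (X : Spc) (x : Pt) : Module.Finite ℂ (X.Tan x) := by
  obtain ⟨V, -, hV⟩ := X.exists_V; exact finite_TanI V hV x
lemma TanI_anti {J J' : Ideal R} (h : J ≤ J') (x : Pt) : TanI J' x ≤ TanI J x :=
  fun _ hξ r hr => hξ r (h hr)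
/-- the tangent space of `J + (f_i)` -/
lemma TanI_sup_span {J : Ideal R} {x : Pt} (hJ : J ≤ mx x) {α : Type} (f : α → R)
    (hf : ∀ i, eval x (f i) = 0) {ξ : Pt} :
    ξ ∈ TanI (J ⊔ Ideal.span (Set.range f)) x ↔ ξ ∈ TanI J x ∧ ∀ i, dAt x ξ (f i) = 0 := by
  have _ := hJ
  exact Jac.mem_TanI_sup_span hf
/-- tangent spaces and dimensions only depend on the ideal near the point -/
lemma TanI_local {J J' : Ideal R} {x : Pt} (hJ : J ≤ mx x) {r : R} (hr : eval x r ≠ 0)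
    (h : ∀ s ∈ J', r * s ∈ J) (h' : J ≤ J') : TanI J' x = TanI J x := by
  refine le_antisymm (TanI_anti h' x) (Jac.TanI_le_of_local (fun s hs => ?_) fun s hs => ⟨r, hr, h s hs⟩)
  exact ((Jac.mx_isPrime x).mem_or_mem (hJ (h s hs))).resolve_left hr
/-- a function whose differential kills the tangent space lies in `J + 𝔪²` -/
lemma mem_sup_sq {J : Ideal R} (V : Finset Var) (hV : ∀ v ∉ V, (MvPolynomial.X v : R) ∈ J) {x : Pt}
    (hJ : J ≤ mx x) {r : R} (hr : eval x r = 0) (h : ∀ ξ ∈ TanI J x, dAt x ξ r = 0) :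
    r ∈ J ⊔ mx x ^ 2 := Jac.mem_sup_sq_of_dAt ⟨V, hV⟩ hJ hr h
theorem ldimI_le_finrank {J : Ideal R} (V : Finset Var) (hV : ∀ v ∉ V, (MvPolynomial.X v : R) ∈ J)
    {x : Pt} (hJ : J ≤ mx x) : ldimI J x ≤ finrank ℂ (TanI J x) := Jac.hq_le_tan ⟨V, hV⟩ hJ
theorem Spc.ldim_le_tan {x : Pt} (hx : x ∈ X.pts) : X.ldim x ≤ finrank ℂ (X.Tan x) := Jac.ldim_le_tan hx
/-- an ideal with the right zero set near `x` has the right dimension -/
theorem ldimI_eq_of_local {J : Ideal R} (V : Finset Var)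
    (hV : ∀ v ∉ V, (MvPolynomial.X v : R) ∈ J) {x : Pt} (hx : x ∈ Z.pts) {g : R} (hg : eval x g ≠ 0)
    (h : ∀ y : Pt, eval y g ≠ 0 → (y ∈ Z.pts ↔ ∀ s ∈ J, eval y s = 0)) : ldimI J x = Z.ldim x := by
  have hJ : J ≤ mx x := fun s hs => (h x hg).1 hx s hs
  have h1 : ∀ s ∈ J, g * s ∈ Z.I := fun s hs y hy => by
    rw [map_mul]
    by_cases h0 : eval y g = 0
    · rw [h0, zero_mul]
    · rw [(h y h0).1 hy s hs, mul_zero]
  refine le_antisymm (Jac.hq_le_of hJ fun q hq hqm hJq a ha => ?_)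
    (Jac.hq_le_of (Jac.I_le_mx hx) fun q hq hqm hZq s hs => ?_)
  · obtain ⟨ρ, hρ, k, hk⟩ := Jac.I_le_rad ⟨V, hV⟩ (Z.rel x hx) hg
      (fun y _ hy hJy => (h y hy).2 fun s hs => hJy hs) ha
    exact hq.mem_of_pow_mem k ((hq.mem_or_mem (hJq hk)).resolve_left fun h' => hρ (hqm h'))
  · exact (hq.mem_or_mem (hZq (h1 s hs))).resolve_left fun h' => hg (hqm h')
/-- Krull: `n` equations cut the dimension by at most `n` -/
theorem Spc.ldim_le_add (hZ : Z.Sub W) {x : Pt} (hx : x ∈ Z.pts) {α : Type} [Fintype α] (f : α → R)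
    {g : R} (hg : eval x g ≠ 0)
    (h : ∀ y ∈ W.pts, eval y g ≠ 0 → (y ∈ Z.pts ↔ ∀ i, eval y (f i) = 0)) :
    W.ldim x ≤ Z.ldim x + Fintype.card α := by
  refine Jac.ldim_le_add hZ hx (fun i => g * f ((Fintype.equivFin α).symm i)) (fun i y hy => ?_) hg
    fun y hy hgy hs => (h y hy hgy).2 fun i => ?_
  · rw [map_mul]
    by_cases h0 : eval y g = 0
    · rw [h0, zero_mul]
    · rw [(h y (hZ.2 hy) h0).1 hy, mul_zero]
  · have := hs (Fintype.equivFin α i)
    rw [Equiv.symm_apply_apply, map_mul] at this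
    exact (mul_eq_zero.1 this).resolve_left hgy
theorem Spc.ldim_mono (hZ : Z.Sub W) {x : Pt} (hx : x ∈ Z.pts) : Z.ldim x ≤ W.ldim x := Jac.ldim_mono hZ.2 hx
theorem Spc.ldim_local (hZ : Z.Sub W) {x : Pt} (hx : x ∈ Z.pts) {g : R} (hg : eval x g ≠ 0)
    (h : ∀ y ∈ W.pts, eval y g ≠ 0 → y ∈ Z.pts) : Z.ldim x = W.ldim x ∧ Z.Tan x = W.Tan x := by
  have h1 : ∀ s ∈ Z.I, g * s ∈ W.I := fun s hs y hy => by
    rw [map_mul]
    by_cases h0 : eval y g = 0
    · rw [h0, zero_mul]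
    · rw [hs y (h y hy h0), mul_zero]
  exact ⟨Jac.hq_eq_of_local (Jac.I_le_mx hx) hZ.I_le fun a ha => ⟨g, hg, 1, by
    rw [pow_one]; exact h1 a ha⟩, TanI_local (Jac.I_le_mx (hZ.2 hx)) hg h1 hZ.I_le⟩
/-- Jacobian criterion: if the tangent space of `V(J)` is not bigger than the dimension of the
reduced zero set then `J` is the reduced ideal near `x` -/
theorem jacobian {J : Ideal R} (V : Finset Var) (hV : ∀ v ∉ V, (MvPolynomial.X v : R) ∈ J) {x : Pt}
    (hx : x ∈ Z.pts) {g : R} (hg : eval x g ≠ 0)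
    (h : ∀ y : Pt, eval y g ≠ 0 → (y ∈ Z.pts ↔ ∀ s ∈ J, eval y s = 0))
    (ht : (finrank ℂ (TanI J x) : ℕ∞) ≤ Z.ldim x) :
    ∃ r : R, eval x r ≠ 0 ∧ (∀ s ∈ Z.I, r * s ∈ J) ∧ ∀ s ∈ J, r * s ∈ Z.I := by
  have hJ : J ≤ mx x := fun s hs => (h x hg).1 hx s hs
  have h1 : ∀ s ∈ J, g * s ∈ Z.I := fun s hs y hy => by
    rw [map_mul]
    by_cases h0 : eval y g = 0
    · rw [h0, zero_mul]
    · rw [(h y h0).1 hy s hs, mul_zero]
  have h2 : Jac.hq (J ⊔ Z.I) (mx x) = Z.ldim x :=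
    Jac.hq_eq_of_local (sup_le hJ (Jac.I_le_mx hx)) le_sup_right fun a ha => by
      obtain ⟨b, hb, c, hc, rfl⟩ := Submodule.mem_sup.1 ha
      refine ⟨g, hg, 1, ?_⟩
      rw [pow_one, mul_add]
      exact add_mem (h1 b hb) (Ideal.mul_mem_left _ _ hc)
  obtain ⟨-, -, -, ⟨r, hr, h3⟩, -⟩ := Jac.reg_at ⟨V, hV⟩ (le_sup_left : J ≤ J ⊔ Z.I)
    (sup_le hJ (Jac.I_le_mx hx)) (h2 ▸ ht)
  refine ⟨r * g, by rw [map_mul]; exact mul_ne_zero hr hg, fun s hs => ?_, fun s hs => ?_⟩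
  · rw [mul_right_comm]
    exact Ideal.mul_mem_right _ _ (h3 s (Ideal.mem_sup_right hs))
  · rw [mul_assoc]
    exact Ideal.mul_mem_left _ _ (h1 s hs)
/-- the local ring at a smooth point is regular -/
theorem Spc.SmAt.regular {x : Pt} (hx : x ∈ X.pts) (h : X.SmAt x)
    [((mx x).map (Ideal.Quotient.mk X.I)).IsPrime] :
    IsRegularLocalRing (Localization.AtPrime ((mx x).map (Ideal.Quotient.mk X.I))) := by
  obtain ⟨z, hz, hg⟩ := Jac.exists_gen (Jac.finJ_I X) (Jac.I_le_mx hx)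
  exact Jac.isRegular_of_gen z hz hg h
lemma Spc.isMaximal_mx {x : Pt} (hx : x ∈ X.pts) :
    ((mx x).map (Ideal.Quotient.mk X.I)).IsMaximal := by
  refine Ideal.IsMaximal.map_of_surjective_of_ker_le Ideal.Quotient.mk_surjective ?_
  rw [Ideal.mk_ker]
  exact Jac.I_le_mx hx
lemma Spc.Sm.smAt {n : ℕ} (h : X.Sm n) {x : Pt} (hx : x ∈ X.pts) : X.SmAt x := Jac.sm_smAt h hx
lemma Spc.sm_of {n : ℕ} (h : ∀ x ∈ X.pts, finrank ℂ (X.Tan x) ≤ n ∧ (n : ℕ∞) ≤ X.ldim x) : X.Sm n :=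
  Jac.sm_of_le (fun x hx => (h x hx).1) fun x hx => (h x hx).2
/-- near a smooth point the space is a domain -/
theorem Spc.SmAt.domain {x : Pt} (hx : x ∈ X.pts) (h : X.SmAt x) {a b : R} (hab : a * b ∈ X.I) :
    ∃ r : R, eval x r ≠ 0 ∧ (r * a ∈ X.I ∨ r * b ∈ X.I) := by
  rcases (Jac.smAt_locI_prime hx h).mem_or_mem (Jac.le_locI _ _ hab) with ⟨r, hr, h1⟩ | ⟨r, hr, h1⟩
  · exact ⟨r, hr, Or.inl h1⟩
  · exact ⟨r, hr, Or.inr h1⟩
theorem Spc.irred_of_smooth (hc : X.Conn) (h : ∀ x ∈ X.pts, X.SmAt x) : X.Irred := 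
  Jac.irred_of_smAt_conn hc h
/-- an irreducible space has the same dimension at all points -/
theorem Spc.Irred.ldim_eq (h : X.Irred) {x y : Pt} (hx : x ∈ X.pts) (hy : y ∈ X.pts) :
    X.ldim x = X.ldim y := (Jac.ldim_irred h hx).trans (Jac.ldim_irred h hy).symm
theorem Spc.Irred.ldim_lt (h : X.Irred) (hZ : Z.Sub X) (hne : Z.pts ≠ X.pts) {x : Pt}
    (hx : x ∈ Z.pts) : Z.ldim x + 1 ≤ X.ldim x := Jac.ldim_lt_of_sub h hZ hne hx
/-- fibre inequality; the fibre of the cone map is given by the ideal `Y.I + 𝔪_x` -/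
theorem Spc.ldim_le_fibre (p : Proj Y X) {y : Pt} (hy : y ∈ Y.pts) :
    Y.ldim y ≤ X.ldim (restr X.B y) +
      ldimI (Y.I ⊔ Ideal.span {r | ∃ v : Var, v.1 ∈ X.B ∧ r = MvPolynomial.X v - C (y v)}) y := by
  have h1 := Jac.hq_le_fibre (kill X.B : R →+* R) (J := X.I) (J' := Y.I) (m' := mx y)
    (fun r hr => Jac.mem_comap_kill.2 (p.kill_mem hr)) (Jac.I_le_mx hy)
  rw [Jac.comap_kill_mx] at h1
  refine h1.trans (add_le_add_right (Jac.hq_anti ?_
    (sup_le_sup_left (Ideal.span_le.2 ?_) _)) _)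
  · exact sup_le (Jac.I_le_mx hy) (by rw [Ideal.map_le_iff_le_comap, Jac.comap_kill_mx])
  · rintro _ ⟨v, hv, rfl⟩
    have h2 := Ideal.mem_map_of_mem (kill X.B : R →+* R) (Jac.X_sub_mem_mx (restr X.B y) v)
    rw [RingHom.coe_coe, map_sub, Jac.kill_X_mem hv, Jac.kill_C] at h2
    simpa [restr, hv] using h2
/-- if `y` is isolated in its fibre (up to scaling the new blocks) -/
theorem Spc.ldim_le_of_isolated (p : Proj Y X) {y : Pt} (hy : y ∈ Y.pts) {g : R}
    (hg : eval y g ≠ 0) (h : ∀ z ∈ Y.pts, restr X.B z = restr X.B y → eval z g ≠ 0 →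
      ∃ c : ℕ → ℂ, ∀ v, z v = c v.1 * y v) :
    Y.ldim y ≤ X.ldim (restr X.B y) + (Y.B \ X.B).card := by
  refine (Spc.ldim_le_fibre p hy).trans (add_le_add_right ?_ _)
  set J := Y.I ⊔ Ideal.span {r | ∃ v : Var, v.1 ∈ X.B ∧ r = MvPolynomial.X v - C (y v)} with hJ
  have hfin : Jac.FinJ J := (Jac.finJ_I Y).mono le_sup_left
  have := hfin.noeth
  have hJm : J ≤ mx y := sup_le (Jac.I_le_mx hy)
    (Ideal.span_le.2 (by rintro _ ⟨v, -, rfl⟩; exact Jac.X_sub_mem_mx y v))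
  choose! vb hvb hvb' using Y.rel y hy
  let e := (Y.B \ X.B).equivFin
  let s : Fin (Y.B \ X.B).card → R := fun i =>
    MvPolynomial.X (vb (e.symm i)) - C (y (vb (e.symm i)))
  have hs : ∀ i, s i ∈ mx y := fun i => Jac.X_sub_mem_mx y _
  refine (Jac.hq_le_sup_add hJm s hs).trans ?_
  have hle : J ⊔ Ideal.span (Set.range s) ≤ mx y := Jac.sup_span_le hJm hs
  rw [← Jac.hq_eq_of_local le_rfl hle, Jac.hq_self, zero_add]
  intro a ha
  obtain ⟨ρ, hρ, hρ'⟩ := Jac.exists_rel_fun (Y.rel y hy)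
  obtain ⟨k, hk⟩ := Jac.nss (hfin.mono (le_sup_left : J ≤ J ⊔ Ideal.span (Set.range s)))
    (a := ρ * g * a) fun z hz => by
    rw [map_mul, map_mul]
    by_cases h1 : eval z ρ = 0
    · rw [h1, zero_mul, zero_mul]
    by_cases h2 : eval z g = 0
    · rw [h2, mul_zero, zero_mul]
    have hzY : z ∈ Y.pts := Jac.mem_pts_of_le (hρ' z h1) (le_sup_left.trans (le_sup_left.trans hz))
    have h3 : ∀ v : Var, v.1 ∈ X.B → z v = y v := fun v hv => by
      have := hz (Ideal.mem_sup_left (Ideal.mem_sup_right (Ideal.subset_span ⟨v, hv, rfl⟩)))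
      simpa [mem_mx, sub_eq_zero] using this
    obtain ⟨c, hc⟩ := h z hzY (funext fun v => by
      by_cases hv : v.1 ∈ X.B <;> simp [restr, hv, h3]) h2
    have h4 : z = y := funext fun v => by
      by_cases hv : v.1 ∈ X.B
      · exact h3 v hv
      by_cases hv' : v.1 ∈ Y.B
      · have h5 := hz (Ideal.mem_sup_right (Ideal.subset_span
          (Set.mem_range_self (e ⟨v.1, Finset.mem_sdiff.2 ⟨hv', hv⟩⟩))))
        simp only [s, Equiv.symm_apply_apply, mem_mx, map_sub, eval_X, eval_C, sub_eq_zero] at h5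
        rw [hc, hvb _ hv'] at h5
        rw [hc, (mul_eq_right₀ (hvb' _ hv')).1 h5, one_mul]
      · rw [← Y.restr_eq hzY, ← Y.restr_eq hy]
        simp [restr, hv']
    rw [h4, mem_mx.1 ha, mul_zero]
  refine ⟨(ρ * g) ^ k, ?_, k, by rwa [← mul_pow]⟩
  rw [mem_mx, map_pow, map_mul]
  exact pow_ne_zero _ (mul_ne_zero hρ hg)
/-- the dimension of an image is at most the dimension of the source -/
theorem Spc.ldim_img_le (p : Proj Y X) (hs : ∀ x ∈ X.pts, ∃ y ∈ Y.pts, restr X.B y = x) {n : ℕ}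
    (h : ∀ y ∈ Y.pts, Y.ldim y ≤ n) {x : Pt} (hx : x ∈ X.pts) :
    X.ldim x + (Y.B \ X.B).card ≤ n := by
  obtain ⟨P, hP, -, hd⟩ := Jac.exists_comp_ldim hx
  obtain ⟨W, hW, hi, hc⟩ := Jac.exists_dominant (Y := Y) (X := X) (Jac.comp_irred X P hP)
    fun z hz => hs z hz.1
  have h1 := Jac.pdim_add_le_of_dominant hi (B := X.B) (hW.1 ▸ p.sub)
  rw [hc, Jac.comp_I, hW.1] at h1
  obtain ⟨y, hy⟩ := Jac.irred_nonempty hi
  have h2 := (Jac.ldim_mono hW.2 hy).trans (h y (hW.2 hy))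
  rw [Jac.ldim_irred hi hy] at h2
  rw [hd]
  exact le_trans (by exact_mod_cast h1) h2
/-- lower bound from a polynomial parametrisation with injective differential -/
theorem Spc.le_ldim_of_param {σ : Type} [Fintype σ] (F : Var → MvPolynomial σ ℂ) {x : Pt}
    (h0 : ∀ v, eval 0 (F v) = x v) (hF : ∀ r ∈ X.I, aeval F r = 0)
    (hd : ∀ i : σ, ∃ r : R, eval x r = 0 ∧ aeval F r - MvPolynomial.X i ∈
      (RingHom.ker (eval (0 : σ → ℂ))) ^ 2) : (Fintype.card σ : ℕ∞) ≤ X.ldim x := by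
  let m : Ideal (MvPolynomial σ ℂ) := RingHom.ker (eval (0 : σ → ℂ))
  have hmax : m.IsMaximal := RingHom.ker_isMaximal_of_surjective _ fun c => ⟨C c, eval_C c⟩
  have hev : ∀ r : R, eval 0 (aeval F r) = eval x r := fun r => by
    induction r using MvPolynomial.induction_on with
    | C c => simp
    | add p q hp hq => rw [map_add, map_add, map_add, hp, hq]
    | mul_X p v hp => rw [map_mul, map_mul, map_mul, hp, aeval_X, h0, eval_X]
  have hc : m.comap (aeval F : R →ₐ[ℂ] MvPolynomial σ ℂ).toRingHom = mx x :=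
    Ideal.ext fun r => by rw [Ideal.mem_comap, RingHom.mem_ker, mem_mx, ← hev]; rfl
  have h1 := Jac.hq_le_fibre (aeval F : R →ₐ[ℂ] MvPolynomial σ ℂ).toRingHom (J := X.I) (J' := ⊥)
    (m' := m) (fun r hr => Ideal.mem_comap.2 (Ideal.mem_bot.2 (hF r hr))) bot_le
  rw [hc, Jac.hq_bot] at h1
  set J := ⊥ ⊔ (mx x).map (aeval F : R →ₐ[ℂ] MvPolynomial σ ℂ).toRingHom with hJ
  have hJm : J ≤ m := sup_le bot_le (by rw [Ideal.map_le_iff_le_comap, hc])
  have hX : ∀ p : MvPolynomial σ ℂ, p - C (eval 0 p) ∈ J ⊔ m ^ 2 := fun p => by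
    induction p using MvPolynomial.induction_on with
    | C c => simp
    | add p q hp hq =>
      convert add_mem hp hq using 1
      rw [map_add, map_add]; ring
    | mul_X p i _ =>
      obtain ⟨r, hr, h2⟩ := hd i
      rw [map_mul, eval_X, Pi.zero_apply, mul_zero, map_zero, sub_zero]
      refine Ideal.mul_mem_left _ _ ?_
      have h3 : aeval F r ∈ J := Ideal.mem_sup_right (Ideal.mem_map_of_mem _ (mem_mx.2 hr))
      have := sub_mem (Ideal.mem_sup_left h3 : _ ∈ J ⊔ m ^ 2) (Ideal.mem_sup_right h2)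
      rwa [sub_sub_cancel] at this
  have h2 := (Jac.hq_le_of_gen hJm (n := 0) Fin.elim0 (fun i => i.elim0) (fun p hp => by
    have := hX p
    rw [RingHom.mem_ker.1 hp, map_zero, sub_zero] at this
    rw [sup_assoc]
    exact Ideal.mem_sup_right this)).1
  obtain ⟨s, h3, -, h4⟩ := Jac.height_eq_trdeg ℂ (MvPolynomial σ ℂ)
  rw [MvPolynomial.trdeg_of_isDomain] at h3
  have h5 : Fintype.card σ = s := by simpa using h3
  rw [h4 m hmax, ← h5] at h1
  exact h1.trans (by rw [le_antisymm h2 zero_le, Nat.cast_zero, add_zero]; exact le_rfl)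
theorem Spc.full_sm {B : Finset ℕ} {V : Finset Var} (h : ∀ v ∈ V, v.1 ∈ B) :
    (Spc.full B V).Sm V.card := by
  have hle : Jac.varI V ≤ (Spc.full B V).I := Jac.varI_le fun v hv y hy => by
    rw [eval_X]; exact by_contra fun h0 => hv (hy.2 v h0).1
  have hx0 : ∀ x ∈ (Spc.full B V).pts, ∀ v ∉ V, x v = 0 := fun x hx v hv =>
    by_contra fun h0 => hv (hx.2 v h0).1
  refine Jac.sm_of_le (fun x hx => ?_) fun x hx => ?_
  · have := (Jac.finJ_varI V).finite_tan x
    rw [← Jac.finrank_tan_varI (hx0 x hx)]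
    exact Submodule.finrank_mono (TanI_anti hle x)
  · rw [Jac.ldim_eq_hq (Jac.finJ_varI V) hx hle (g := 1) (by simp) fun y hy _ hJ =>
      ⟨hy, fun v hv => by
        have h1 : v ∈ V := by_contra fun h2 => hv (Jac.varI_le_mx.1 hJ v h2)
        exact ⟨h1, h v h1⟩⟩]
    exact Jac.card_le_hq_varI (hx0 x hx)
lemma Spc.tan_fib (h : Disjoint X.B Y.B) {z : Pt} (hz : z ∈ (X.fib Y).pts) {ξ : Pt} :
    ξ ∈ (X.fib Y).Tan z ↔ restr X.B ξ ∈ X.Tan (restr X.B z) ∧ restr Y.B ξ ∈ Y.Tan (restr Y.B z) ∧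
      ∀ v, ξ v ≠ 0 → v.1 ∈ X.B ∪ Y.B := by
  constructor
  · intro hξ
    refine ⟨fun r hr => ?_, fun r hr => ?_, fun v hv => by_contra fun hn => hv ?_⟩
    · rw [← Jac.dAt_kill]; exact hξ _ ((Spc.fib_fst X Y).kill_mem hr)
    · rw [← Jac.dAt_kill]; exact hξ _ ((Spc.fib_snd X Y).kill_mem hr)
    · have := hξ (MvPolynomial.X v) fun w hw => by
        rw [eval_X]; exact by_contra fun h0 => hn (hw.2.2 v h0)
      rwa [dAt_X] at this
  · rintro ⟨h1, h2, h3⟩ r hr
    have hd := Finset.disjoint_left.1 h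
    have hξ : ξ = restr X.B ξ + restr Y.B ξ := funext fun v => by
      by_cases a : v.1 ∈ X.B
      · simp [restr, a, hd a]
      by_cases b : v.1 ∈ Y.B
      · simp [restr, a, b]
      · have : ξ v = 0 := by_contra fun h0 => by simpa [a, b] using h3 v h0
        simp [restr, a, b, this]
    have hX : Jac.frz X.B z r ∈ X.I := fun x hx => by
      rw [Jac.eval_frz]
      refine hr _ ⟨?_, ?_, fun v hv => ?_⟩
      · convert hx using 1
        rw [← X.restr_eq hx]
        funext v; by_cases a : v.1 ∈ X.B <;> simp [restr, a]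
      · convert hz.2.1 using 1
        funext v
        by_cases b : v.1 ∈ Y.B
        · simp [restr, b, Finset.disjoint_right.1 h b]
        · simp [restr, b]
      · by_cases a : v.1 ∈ X.B
        · exact Finset.mem_union_left _ a
        · exact hz.2.2 v (by simpa [a] using hv)
    have hY : Jac.frz Y.B z r ∈ Y.I := fun y hy => by
      rw [Jac.eval_frz]
      refine hr _ ⟨?_, ?_, fun v hv => ?_⟩
      · convert hz.1 using 1
        funext v
        by_cases a : v.1 ∈ X.B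
        · simp [restr, a, hd a]
        · simp [restr, a]
      · convert hy using 1
        rw [← Y.restr_eq hy]
        funext v; by_cases b : v.1 ∈ Y.B <;> simp [restr, b]
      · by_cases b : v.1 ∈ Y.B
        · exact Finset.mem_union_right _ b
        · exact hz.2.2 v (by simpa [b] using hv)
    have h4 := h1 _ hX
    have h5 := h2 _ hY
    rw [Jac.dAt_frz, restr_restr subset_rfl] at h4 h5
    rw [hξ, dAt_dir_add, h4, h5, add_zero]
theorem Spc.Sm.fib {m n : ℕ} (hX : X.Sm m) (hY : Y.Sm n) (h : Disjoint X.B Y.B) :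
    (X.fib Y).Sm (m + n) := by
  refine Jac.sm_of_le (fun z hz => ?_) fun z hz => ?_
  · let φ : (X.fib Y).Tan z →ₗ[ℂ] X.Tan (restr X.B z) × Y.Tan (restr Y.B z) :=
      LinearMap.prod
        ((Jac.restrL X.B).restrict fun ξ hξ => ((Spc.tan_fib h hz).1 hξ).1)
        ((Jac.restrL Y.B).restrict fun ξ hξ => ((Spc.tan_fib h hz).1 hξ).2.1)
    have hφ : Function.Injective φ := by
      rw [injective_iff_map_eq_zero]
      rintro ⟨ξ, hξ⟩ h0
      have h1 : restr X.B ξ = 0 := congrArg (fun t => (t.1 : Pt)) h0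
      have h2 : restr Y.B ξ = 0 := congrArg (fun t => (t.2 : Pt)) h0
      refine Subtype.ext (funext fun v => by_contra fun hv => ?_)
      rcases Finset.mem_union.1 (((Spc.tan_fib h hz).1 hξ).2.2 v hv) with a | a
      · exact hv (by simpa [restr, a] using congrFun h1 v)
      · exact hv (by simpa [restr, a] using congrFun h2 v)
    have := LinearMap.finrank_le_finrank_of_injective hφ
    rwa [Module.finrank_prod, (hX _ hz.1).1, (hY _ hz.2.1).1] at this
  · obtain ⟨V, hV, hV0⟩ := X.fin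
    obtain ⟨V', hV', hV0'⟩ := Y.fin
    have hle : Jac.varI V ≤ X.I := Jac.varI_le fun v hv y hy => by rw [eval_X]; exact hV0 y hy v hv
    have hle' : Jac.varI V' ≤ Y.I :=
      Jac.varI_le fun v hv y hy => by rw [eval_X]; exact hV0' y hy v hv
    obtain ⟨c, s, -, h1, -, -, h2, r, hr, h3⟩ :=
      Jac.smAt_local_eqs (Jac.finJ_varI V) hle hz.1 (hX.smAt hz.1)
    obtain ⟨c', s', -, h1', -, -, h2', r', hr', h3'⟩ :=
      Jac.smAt_local_eqs (Jac.finJ_varI V') hle' hz.2.1 (hY.smAt hz.2.1)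
    rw [Jac.finrank_tan_varI (hV0 _ hz.1), (hX _ hz.1).1] at h2
    rw [Jac.finrank_tan_varI (hV0' _ hz.2.1), (hY _ hz.2.1).1] at h2'
    have hdj : Disjoint V V' := Finset.disjoint_left.2 fun v a b =>
      Finset.disjoint_left.1 h (hV v a) (hV' v b)
    have h0 : ∀ w ∈ (X.fib Y).pts, ∀ v ∉ V ∪ V', w v = 0 := fun w hw v hv => by
      rw [Finset.notMem_union] at hv
      by_contra hn
      rcases Finset.mem_union.1 (hw.2.2 v hn) with a | a
      · exact hn (by simpa [restr, a] using hV0 _ hw.1 v hv.1)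
      · exact hn (by simpa [restr, a] using hV0' _ hw.2.1 v hv.2)
    let t : Fin (c + c') → R := Fin.append (fun i => kill X.B (s i)) fun i => kill Y.B (s' i)
    have ht : ∀ i, t i ∈ (X.fib Y).I := fun i => by
      refine Fin.addCases (fun i => ?_) (fun i => ?_) i
      · simp only [t, Fin.append_left]; exact (Spc.fib_fst X Y).kill_mem (h1 i)
      · simp only [t, Fin.append_right]; exact (Spc.fib_snd X Y).kill_mem (h1' i)
    have hJ : Jac.varI (V ∪ V') ≤ (X.fib Y).I :=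
      Jac.varI_le fun v hv w hw => by rw [eval_X]; exact h0 w hw v hv
    have := (Jac.finJ_varI (V ∪ V')).noeth
    have h4 := (Jac.card_le_hq_varI (h0 z hz)).trans
      (Jac.hq_le_sup_add (Jac.varI_le_mx.2 (h0 z hz)) t fun i => Jac.I_le_mx hz (ht i))
    rw [← Jac.ldim_eq_hq ((Jac.finJ_varI _).mono le_sup_left) hz (Jac.sup_span_le hJ ht)
      (g := kill X.B r * kill Y.B r') (by
        rw [map_mul, eval_kill, eval_kill]; exact mul_ne_zero hr hr') fun w hw hg hw' => ?_] at h4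
    · rw [Finset.card_union_of_disjoint hdj, ← h2, ← h2'] at h4
      refine (ENat.add_le_add_iff_right (ENat.natCast_ne_top (c + c'))).1 (le_trans ?_ h4)
      exact_mod_cast (by omega : m + n + (c + c') ≤ m + c + (n + c'))
    · rw [map_mul, eval_kill, eval_kill] at hg
      have hw0 := Jac.varI_le_mx.1 (le_sup_left.trans hw')
      have hwt : ∀ i, eval w (t i) = 0 := fun i =>
        hw' (Ideal.mem_sup_right (Ideal.subset_span ⟨i, rfl⟩))
      refine ⟨Jac.mem_pts_of_le (Jac.rel_restr_of Finset.subset_union_left hw) fun a ha => ?_,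
        Jac.mem_pts_of_le (Jac.rel_restr_of Finset.subset_union_right hw) fun a ha => ?_,
        fun v hv => ?_⟩
      · have h5 : Jac.varI V ⊔ Ideal.span (Set.range s) ≤ mx (restr X.B w) := by
          refine Jac.sup_span_le (Jac.varI_le_mx.2 fun v hv => ?_) fun i => ?_
          · by_cases a : v.1 ∈ X.B
            · simpa [restr, a] using hw0 v (Finset.notMem_union.2
                ⟨hv, fun b => Finset.disjoint_left.1 h a (hV' v b)⟩)
            · simp [restr, a]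
          · have := hwt (Fin.castAdd c' i)
            simp only [t, Fin.append_left] at this
            rwa [eval_kill] at this
        exact ((Jac.mx_isPrime _).mem_or_mem (h5 (h3 a ha))).resolve_left (left_ne_zero_of_mul hg)
      · have h5 : Jac.varI V' ⊔ Ideal.span (Set.range s') ≤ mx (restr Y.B w) := by
          refine Jac.sup_span_le (Jac.varI_le_mx.2 fun v hv => ?_) fun i => ?_
          · by_cases a : v.1 ∈ Y.B
            · simpa [restr, a] using hw0 v (Finset.notMem_union.2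
                ⟨fun b => Finset.disjoint_left.1 h (hV v b) a, hv⟩)
            · simp [restr, a]
          · have := hwt (Fin.natAdd c i)
            simp only [t, Fin.append_right] at this
            rwa [eval_kill] at this
        exact ((Jac.mx_isPrime _).mem_or_mem (h5 (h3' a ha))).resolve_left
          (right_ne_zero_of_mul hg)
      · rcases Finset.mem_union.1 (by_contra fun hn => hv (hw0 v hn) : v ∈ V ∪ V') with a | a
        · exact Finset.mem_union_left _ (hV v a)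
        · exact Finset.mem_union_right _ (hV' v a)
lemma Proj.tan (p : Proj Y X) {y ξ : Pt} (h : ξ ∈ Y.Tan y) : restr X.B ξ ∈ X.Tan (restr X.B y) :=
  fun r hr => by rw [← Jac.dAt_kill]; exact h _ (p.kill_mem hr)
/-- Hartogs: on a smooth space divisibility extends over codimension two -/
theorem Spc.hartogs {n : ℕ} (hX : X.Sm n) (hZ : Z.Sub X) (hc : ∀ z ∈ Z.pts, Z.ldim z + 2 ≤ n)
    {x : Pt} (hx : x ∈ X.pts) {f g u : R} (hu : eval x u ≠ 0)
    (hg : ∀ r : R, eval x r ≠ 0 → r * g ∉ X.I)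
    (h : ∀ y ∈ X.pts, y ∉ Z.pts → eval y u ≠ 0 → ∃ r a : R, eval y r ≠ 0 ∧ r * f - a * g ∈ X.I) :
    ∃ r a : R, eval x r ≠ 0 ∧ r * f - a * g ∈ X.I := by
  by_contra hf
  have := (Spc.isMaximal_mx hx).isPrime
  have := (hX.smAt hx).regular hx
  obtain ⟨p, hp, hpm, h1, h2⟩ := Jac.exists_prime_of_not_dvd (Jac.I_le_mx hx) (hX x hx).2 hg hf
  have hXp : X.I ≤ p := fun r hr => by
    have h3 : r * f - 0 * g ∈ X.I := by
      rw [zero_mul, sub_zero]; exact Ideal.mul_mem_right _ _ hr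
    exact h1 r 0 h3
  have hZp : ∀ y, Rel Z.B y → eval y u ≠ 0 → p ≤ mx y → y ∈ Z.pts := fun y hy hyu hpy => by
    by_contra hn
    obtain ⟨r, a, hr, h3⟩ := h y (Jac.mem_pts_of_le (hZ.1 ▸ hy) (hXp.trans hpy)) hn hyu
    exact hr (hpy (h1 r a h3))
  have hxZ : x ∈ Z.pts := hZp x (hZ.1 ▸ X.rel x hx) hu hpm
  have h3 : Z.I ≤ p := fun a ha => by
    obtain ⟨ρ, hρ, k, hk⟩ := Jac.I_le_rad ((Jac.finJ_I X).mono hXp) (Z.rel x hxZ) hu hZp ha
    exact hp.mem_of_pow_mem k ((hp.mem_or_mem hk).resolve_left fun h' => hρ (hpm h'))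
  have h4 : Jac.hq p (mx x) ≤ Z.ldim x := Jac.hq_anti hpm h3
  have h5 := (hc x hxZ).trans (h2.trans (add_le_add_left h4 1))
  obtain ⟨k, hk⟩ := ENat.ne_top_iff_exists.1 (Jac.ldim_ne_top hxZ)
  rw [← hk] at h5
  have h6 : k + 2 ≤ k + 1 := by exact_mod_cast h5
  omega

end Crest.Agent.N265
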