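import Crest.Agent.N265.G.Grad

/-! # Row 265: small lemmas on `restr`, `kill`, block scaling (helper91); namespace `Sp` -/

set_option autoImplicit false
noncomputable section
open MvPolynomial

namespace Crest.Agent.N265.Sp

lemma restr_of_mem {B : Finset ℕ} (x : Pt) {v : Var} (h : v.1 ∈ B) : restr B x v = x v := by
  simp [restr, h]
lemma restr_of_notMem {B : Finset ℕ} (x : Pt) {v : Var} (h : v.1 ∉ B) : restr B x v = 0 := by
  simp [restr, h]
lemma restr_ne {B : Finset ℕ} {x : Pt} {v : Var} : restr B x v ≠ 0 ↔ v.1 ∈ B ∧ x v ≠ 0 := by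
  by_cases h : v.1 ∈ B <;> simp [restr, h]
lemma restr_eq_iff {B : Finset ℕ} {x : Pt} : restr B x = x ↔ ∀ v : Var, x v ≠ 0 → v.1 ∈ B :=
  ⟨fun h v hv => (restr_ne.1 (h.symm ▸ hv)).1, fun h => funext fun v => by
    by_cases hv : v.1 ∈ B
    · exact restr_of_mem _ hv
    · rw [restr_of_notMem _ hv]; exact (by_contra fun h' => hv (h v h') : x v = 0).symm⟩
lemma restr_inter (B B' : Finset ℕ) (x : Pt) : restr B (restr B' x) = restr (B ∩ B') x := by
  funext v; by_cases h : v.1 ∈ B <;> by_cases h' : v.1 ∈ B' <;> simp [restr, h, h']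
lemma restr_restr' {B B' : Finset ℕ} (h : B ⊆ B') (x : Pt) : restr B' (restr B x) = restr B x := by
  rw [restr_inter, Finset.inter_eq_right.2 h]
@[simp] lemma restr_idem (B : Finset ℕ) (x : Pt) : restr B (restr B x) = restr B x :=
  restr_restr subset_rfl x
lemma restr_of_disjoint {B B' : Finset ℕ} (h : Disjoint B B') (x : Pt) :
    restr B (restr B' x) = 0 := by
  rw [restr_inter, Finset.disjoint_iff_inter_eq_empty.1 h]; funext v; simp [restr]
lemma restr_add (B : Finset ℕ) (x y : Pt) : restr B (x + y) = restr B x + restr B y := by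
  funext v; by_cases h : v.1 ∈ B <;> simp [restr, h]
lemma restr_smul (B : Finset ℕ) (c : ℂ) (x : Pt) : restr B (c • x) = c • restr B x := by
  funext v; by_cases h : v.1 ∈ B <;> simp [restr, h]
@[simp] lemma restr_zero (B : Finset ℕ) : restr B 0 = 0 := by funext v; simp [restr]
/-- `restr` as a linear map -/
def restrL (B : Finset ℕ) : Pt →ₗ[ℂ] Pt where
  toFun := restr B
  map_add' := restr_add B
  map_smul' := restr_smul B
@[simp] lemma restrL_apply (B : Finset ℕ) (x : Pt) : restrL B x = restr B x := rfl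
lemma restr_tpt (B : Finset ℕ) (t : Tor) (x : Pt) : restr B (tpt t x) = tpt t (restr B x) := by
  funext v; by_cases h : v.1 ∈ B <;> simp [restr, tpt, h]
lemma restr_add_restr {B B' : Finset ℕ} (h : Disjoint B B') (x : Pt) :
    restr B x + restr B' x = restr (B ∪ B') x := by
  funext v
  by_cases h1 : v.1 ∈ B
  · simp [restr, h1, Finset.disjoint_left.1 h h1]
  · simp [restr, h1]
lemma rel_union {B B' : Finset ℕ} {x : Pt} : Rel (B ∪ B') x ↔ Rel B x ∧ Rel B' x :=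
  ⟨fun h => ⟨fun b hb => h b (Finset.mem_union_left _ hb),
    fun b hb => h b (Finset.mem_union_right _ hb)⟩,
    fun h b hb => (Finset.mem_union.1 hb).elim (h.1 b) (h.2 b)⟩
lemma rel_mono {B B' : Finset ℕ} {x : Pt} (hx : Rel B x) (h : B' ⊆ B) : Rel B' x :=
  fun b hb => hx b (h hb)
lemma rel_of_ne {B : Finset ℕ} {x y : Pt} (hx : Rel B x) (h : ∀ v, x v ≠ 0 → y v ≠ 0) : Rel B y :=
  fun b hb => let ⟨v, h1, h2⟩ := hx b hb; ⟨v, h1, h v h2⟩
lemma rel_empty (x : Pt) : Rel ∅ x := by simp [Rel]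
/-- relevance is an open condition -/
lemma exists_rel_poly {B : Finset ℕ} {x : Pt} (hx : Rel B x) :
    ∃ d ∈ DS B, ∃ ρ : R, Hmg d ρ ∧ eval x ρ ≠ 0 ∧ ∀ y, eval y ρ ≠ 0 → Rel B y := by
  choose! v hv hv' using hx
  refine ⟨∑ b ∈ B, vdeg (v b), sum_mem fun b hb => vdeg_mem (by rwa [hv b hb]),
    ∏ b ∈ B, X (v b), Hmg.prod _ fun _ _ => Hmg.X _, ?_, fun y hy b hb => ⟨v b, hv b hb, ?_⟩⟩
  · rw [map_prod]; exact Finset.prod_ne_zero_iff.2 fun b hb => by rw [eval_X]; exact hv' b hb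
  · rw [map_prod] at hy
    simpa using Finset.prod_ne_zero_iff.1 hy b hb
@[simp] lemma kill_X_mem {B : Finset ℕ} {v : Var} (h : v.1 ∈ B) : kill B (X v) = X v := by
  simp [kill, h]
@[simp] lemma kill_X_notMem {B : Finset ℕ} {v : Var} (h : v.1 ∉ B) : kill B (X v) = 0 := by
  simp [kill, h]
@[simp] lemma kill_C (B : Finset ℕ) (c : ℂ) : kill B (C c) = C c := by simp [kill]
lemma kill_kill (B B' : Finset ℕ) (r : R) : kill B (kill B' r) = kill (B ∩ B') r := by
  refine MvPolynomial.funext fun x => ?_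
  rw [eval_kill, eval_kill, eval_kill, restr_inter, Finset.inter_comm]
lemma dAt_kill (B : Finset ℕ) (x ξ : Pt) (r : R) :
    dAt x ξ (kill B r) = dAt (restr B x) (restr B ξ) r := by
  induction r using MvPolynomial.induction_on with
  | C c => simp
  | add p q hp hq => simp only [map_add, dAt_add, hp, hq]
  | mul_X p v hp =>
    rw [map_mul, dAt_mul, dAt_mul, hp, eval_kill, eval_kill]
    by_cases h : v.1 ∈ B <;> simp [h, restr]

lemma blk_mem {X : Spc} {x : Pt} (hx : x ∈ X.pts) {v : Var} (hv : x v ≠ 0) : v.1 ∈ X.B :=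
  restr_eq_iff.1 (X.restr_eq hx) v hv
lemma eq_zero_of_notMem {X : Spc} {x : Pt} (hx : x ∈ X.pts) {v : Var} (hv : v.1 ∉ X.B) : x v = 0 :=
  by_contra fun h => hv (blk_mem hx h)
lemma X_mem_I {X : Spc} {v : Var} (hv : v.1 ∉ X.B) : (MvPolynomial.X v : R) ∈ X.I :=
  fun x hx => by rw [eval_X]; exact eq_zero_of_notMem hx hv
lemma sub_kill_mem_I (X : Spc) (r : R) : r - kill X.B r ∈ X.I :=
  fun x hx => by rw [map_sub, eval_kill, X.restr_eq hx, sub_self]
lemma kill_mem_I {X : Spc} {r : R} : kill X.B r ∈ X.I ↔ r ∈ X.I :=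
  forall₂_congr fun x hx => by rw [eval_kill, X.restr_eq hx]
lemma I_anti {X Y : Spc} (h : X.pts ⊆ Y.pts) : Y.I ≤ X.I := fun _ hr x hx => hr x (h hx)
lemma pts_subset_of_I_le {X Y : Spc} (hB : X.B = Y.B) (h : Y.I ≤ X.I) : X.pts ⊆ Y.pts :=
  fun x hx => Y.closed x (hB ▸ X.rel x hx) fun _ hr => h hr x hx
lemma eq_of_I_eq {X Y : Spc} (hB : X.B = Y.B) (h : X.I = Y.I) : X = Y :=
  Spc.ext hB ((pts_subset_of_I_le hB h.ge).antisymm (pts_subset_of_I_le hB.symm h.le))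
lemma sub_antisymm {X Y : Spc} (h : X.Sub Y) (h' : Y.Sub X) : X = Y :=
  Spc.ext h.1 (h.2.antisymm h'.2)
lemma I_eq_top_iff {X : Spc} : X.I = ⊤ ↔ X.pts = ∅ := by
  rw [Ideal.eq_top_iff_one, Spc.mem_I, Set.eq_empty_iff_forall_notMem]
  simp
lemma I_radical (X : Spc) : X.I.IsRadical := fun r ⟨n, hn⟩ x hx => by
  have := hn x hx
  rw [map_pow] at this
  exact pow_eq_zero_iff'.1 this |>.1
lemma hc_mem_I {X : Spc} {r : R} (hr : r ∈ X.I) (d : D) : hc d r ∈ X.I :=
  hc_mem_ideal (fun _ => Spc.gam_mem_I) hr d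
lemma proj_sub {Y X : Spc} (h : Proj Y X) (hB : Y.B = X.B) : Y.Sub X :=
  ⟨hB, fun y hy => by have := h.map y hy; rwa [← hB, Y.restr_eq hy] at this⟩

/-- scaling every block `b` by `c b` -/
def bsc (c : ℕ → ℂ) (x : Pt) : Pt := fun v => c v.1 * x v
lemma bsc_apply (c : ℕ → ℂ) (x : Pt) (v : Var) : bsc c x v = c v.1 * x v := rfl
lemma restr_bsc (B : Finset ℕ) (c : ℕ → ℂ) (x : Pt) : restr B (bsc c x) = bsc c (restr B x) := by
  funext v; by_cases h : v.1 ∈ B <;> simp [restr, bsc, h]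
lemma tor_vdeg (t : Tor) (v : Var) : t (Multiplicative.ofAdd (vdeg v)) =
    t (Multiplicative.ofAdd (Finsupp.single (some v.1) 1)) *
      t (Multiplicative.ofAdd (Finsupp.single none 1)) ^ v.2.2 := by
  rw [vdeg, ofAdd_add, map_mul, ofAdd_zsmul, map_zpow]; rfl
/-- a torus element scaling block `b` by `c b` and the weight `k` by `u ^ k` -/
lemma exists_tor_eq (c : ℕ → ℂ) (hc : ∀ b, c b ≠ 0) (u : ℂ) (hu : u ≠ 0) :
    ∃ t : Tor, (∀ x v, tpt t x v = c v.1 * u ^ v.2.2 * x v) ∧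
      (∀ b, (t (Multiplicative.ofAdd (eB b)) : ℂ) = c b) ∧ (t (Multiplicative.ofAdd eT) : ℂ) = u := by
  obtain ⟨t, ht⟩ := exists_tor fun i => match i with
    | none => Units.mk0 u hu
    | some b => Units.mk0 (c b) (hc b)
  refine ⟨t, fun x v => ?_, fun b => ?_, ?_⟩
  · simp [tpt, tor_vdeg, ht]
  · simp [eB, ht]
  · simp [eT, ht]
lemma bsc_mem {X : Spc} {x : Pt} (hx : x ∈ X.pts) {c : ℕ → ℂ} (hc : ∀ b ∈ X.B, c b ≠ 0) :
    bsc c x ∈ X.pts := by
  classical
  obtain ⟨t, ht, -⟩ := exists_tor_eq (fun b => if b ∈ X.B then c b else 1)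
    (fun b => by split_ifs with h; exacts [hc b h, one_ne_zero]) 1 one_ne_zero
  convert X.tpt_mem t hx using 1
  funext v
  rw [ht, bsc]
  by_cases hv : v.1 ∈ X.B
  · simp [hv]
  · simp [eq_zero_of_notMem hx hv]
lemma smul_mem {X : Spc} {x : Pt} (hx : x ∈ X.pts) {c : ℂ} (hc : c ≠ 0) : c • x ∈ X.pts :=
  bsc_mem (c := fun _ => c) hx fun _ _ => hc
/-- a homogeneous polynomial at a block-scaled point -/
lemma exists_eval_bsc {c : ℕ → ℂ} (hc : ∀ b, c b ≠ 0) (d : D) : ∃ a : ℂ, a ≠ 0 ∧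
    ∀ r x, Hmg d r → eval (bsc c x) r = a * eval x r := by
  obtain ⟨t, ht, -⟩ := exists_tor_eq c hc 1 one_ne_zero
  refine ⟨_, (t (Multiplicative.ofAdd d)).ne_zero, fun r x h => ?_⟩
  rw [← h.eval_tpt]
  congr 2
  funext v; simp [ht, bsc]
/-- the weight torus acting on points -/
def tsc (u : ℂ) (x : Pt) : Pt := fun v => u ^ v.2.2 * x v
lemma tsc_mem {X : Spc} {x : Pt} (hx : x ∈ X.pts) {u : ℂ} (hu : u ≠ 0) : tsc u x ∈ X.pts := by
  obtain ⟨t, ht, -⟩ := exists_tor_eq (fun _ => 1) (fun _ => one_ne_zero) u hu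
  convert X.tpt_mem t hx using 1
  funext v; simp [ht, tsc]
/-- on a point whose blocks have pure weights `gpt` is a block scaling -/
lemma gpt_eq_bsc {w : ℕ → ℤ} {x : Pt} (hw : ∀ v : Var, x v ≠ 0 → v.2.2 = w v.1) :
    gpt x = bsc (fun b => chi (eB b + w b • eT)) x := by
  funext v
  by_cases hv : x v = 0
  · simp [gpt, bsc, hv]
  · simp only [gpt, bsc, vdeg, hw v hv]

end Crest.Agent.N265.Sp
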